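import Crest.Agent.N111.C.Defs

/-!
# Row 111, module C: absolute values in the finite algebra `LA K`.
-/

set_option autoImplicit false

namespace Crest.Agent.N111.Cn

open MeasureTheory Topology Filter ContinuousLinearMap
open scoped InnerProductSpace ComplexConjugate ComplexOrder
open Crest.OperatorAlgebra

variable {K : Type} [Group K]

lemma exists_sqrt {H : Type} [NormedAddCommGroup H] [InnerProductSpace ℂ H] [CompleteSpace H]
    {σ : URep K H} {A : H →L[ℂ] H} (hA : A ∈ σ.comm) (h0 : 0 ≤ A) :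
    ∃ s ∈ σ.comm, 0 ≤ s ∧ s * s = A := by
  refine ⟨cfc Real.sqrt A, URep.cfc_mem_comm _ hA _, cfc_nonneg fun x _ => Real.sqrt_nonneg x, ?_⟩
  rw [← cfc_mul _ _ _ Real.continuous_sqrt.continuousOn Real.continuous_sqrt.continuousOn]
  conv_rhs => rw [← cfc_id' ℝ A (IsSelfAdjoint.of_nonneg h0)]
  exact cfc_congr fun x hx => Real.mul_self_sqrt (spectrum_nonneg_of_nonneg h0 hx)

omit [Group K] in
lemma nstar (T : Op K) : ‖star T‖ = ‖T‖ := _root_.norm_star T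

omit [Group K] in
lemma n1 : ‖(1 : Op K)‖ ≤ 1 := norm_id_le

lemma nhm {S T : Op K} (hS : S ∈ LA K) (hT : T ∈ LA K) : ‖S (T (dt 1))‖ ≤ ‖S (dt 1)‖ * ‖T‖ :=
  (norm_hat_mul_LA hS hT).trans_eq (mul_comm _ _)

/-- `ξ` is the regularised left absolute value of `a` -/
structure IsAbs (a ξ : Op K) (ε : ℝ) : Prop where
  mem : ξ ∈ LA K
  sa : star ξ = ξ
  sq : ξ * ξ = a * star a + (ε : ℂ) • 1
  root : ∃ q ∈ LA K, star q = q ∧ q * q = ξ
  polar : ∃ v ∈ LA K, ‖v‖ ≤ 1 ∧ ξ * v = a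

omit [Group K] in
lemma norm_sq_of_sq {a ξ : Op K} {ε : ℝ} (sa : star ξ = ξ) (sq : ξ * ξ = a * star a + (ε : ℂ) • 1)
    (u : Ell2 K) : ‖ξ u‖ ^ 2 = ‖star a u‖ ^ 2 + ε * ‖u‖ ^ 2 := by
  have h1 : ⟪ξ u, ξ u⟫_ℂ = ⟪star a u, star a u⟫_ℂ + ε * ⟪u, u⟫_ℂ := by
    conv_lhs => rw [← sa, star_eq_adjoint, adjoint_inner_left, ← star_eq_adjoint, sa,
      ← mul_apply_eq_comp, sq]
    rw [add_apply, inner_add_right, smul_apply, inner_smul_right, mul_apply_eq_comp,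
      star_eq_adjoint, adjoint_inner_left]
    rfl
  simp only [inner_self_eq_norm_sq_to_K] at h1
  have h2 := congrArg Complex.re h1
  simpa [← Complex.ofReal_pow] using h2

lemma exists_isAbs {a : Op K} (ha : a ∈ LA K) {ε : ℝ} (hε : 0 < ε) : ∃ ξ, IsAbs a ξ ε := by
  set A : Op K := a * star a + (ε : ℂ) • 1 with hA
  have hAm : A ∈ LA K := add_mem (mul_mem ha (star_mem ha)) (SMulMemClass.smul_mem _ (one_mem _))
  have hε' : (0 : ℂ) ≤ ε := by exact_mod_cast hε.le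
  have hA0 : 0 ≤ A := add_nonneg (mul_star_self_nonneg a) (smul_nonneg hε' zero_le_one)
  obtain ⟨ξ, hξ, hξ0, hξA⟩ := exists_sqrt hAm hA0
  obtain ⟨q, hq, hq0, hqξ⟩ := exists_sqrt hξ hξ0
  have sa : star ξ = ξ := IsSelfAdjoint.of_nonneg hξ0
  have hε0 : (ε : ℂ) ≠ 0 := by exact_mod_cast hε.ne'
  obtain ⟨r, hr1, hr2, -⟩ := exists_resolvent (S := (ε : ℂ)⁻¹ • (a * star a))
    (smul_nonneg (inv_nonneg.2 hε') (mul_star_self_nonneg a))
  have hA' : A = (ε : ℂ) • (1 + (ε : ℂ)⁻¹ • (a * star a)) := by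
    rw [smul_add, smul_smul, mul_inv_cancel₀ hε0, one_smul, add_comm]
  set i : Op K := (ε : ℂ)⁻¹ • r
  have h1 : i * A = 1 := by
    rw [hA', smul_mul_smul_comm, inv_mul_cancel₀ hε0, one_smul, hr1]
  have h2 : A * i = 1 := by
    rw [hA', smul_mul_smul_comm, mul_inv_cancel₀ hε0, one_smul, hr2]
  have hi : i ∈ LA K := fun g => by
    calc rho K g * i = i * A * rho K g * i := by rw [h1, one_mul]
      _ = i * rho K g * (A * i) := by rw [mul_assoc i, ← hAm g]; simp only [mul_assoc]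
      _ = _ := by rw [h2, mul_one]
  have h3 : ξ * (i * ξ) = 1 := by
    have : i * ξ = ξ * i := left_inv_eq_right_inv (a := ξ) (by rw [mul_assoc, hξA, h1])
      (by rw [← mul_assoc, hξA, h2])
    rw [this, ← mul_assoc, hξA, h2]
  refine ⟨ξ, hξ, sa, hξA, ⟨q, hq, IsSelfAdjoint.of_nonneg hq0, hqξ⟩,
    star (star a * (i * ξ)), star_mem (mul_mem (star_mem ha) (mul_mem hi hξ)), ?_, ?_⟩
  · rw [nstar]
    refine opNorm_le_bound _ zero_le_one fun η => ?_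
    have h4 := norm_sq_of_sq sa hξA ((i * ξ) η)
    rw [← mul_apply_eq_comp, h3, one_apply_eq_self] at h4
    rw [one_mul, mul_apply_eq_comp]
    refine (pow_le_pow_iff_left₀ (norm_nonneg _) (norm_nonneg _) two_ne_zero).1 ?_
    nlinarith [sq_nonneg ‖(i * ξ) η‖]
  · have h5 : star A = A := IsSelfAdjoint.of_nonneg hA0
    rw [star_mul, star_mul, star_star, sa, ← mul_assoc, ← mul_assoc, hξA, ← h5, ← star_mul, h1,
      star_one, one_mul]

lemma IsAbs.norm_hat_sq {a ξ : Op K} {ε : ℝ} (ha : a ∈ LA K) (h : IsAbs a ξ ε) :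
    ‖ξ (dt 1)‖ ^ 2 = ‖a (dt 1)‖ ^ 2 + ε := by
  rw [norm_sq_of_sq h.sa h.sq, norm_star_hat_LA ha]; simp

lemma norm_hat_mul3 {a b c : Op K} (hb : b ∈ LA K) (hc : c ∈ LA K) :
    ‖(a * b * c) (dt 1)‖ ≤ ‖a‖ * ‖b (dt 1)‖ * ‖c‖ := by
  rw [mul_assoc, mul_apply_eq_comp, mul_assoc]
  exact (le_opNorm _ _).trans (mul_le_mul_of_nonneg_left (nhm hb hc) (norm_nonneg _))

lemma norm_sq_sandwich {q q' W : Op K} (hq : q ∈ LA K) (hq' : q' ∈ LA K) (hW : W ∈ LA K)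
    (sq : star q = q) (sq' : star q' = q') :
    ‖(q' * W * q) (dt 1)‖ ^ 2 = (⟪(q' * q') (dt 1), (W * (q * q) * star W) (dt 1)⟫_ℂ).re := by
  have h1 := tau_star_mul_self (q' * W * q)
  rw [← tau_star_mul, ← Complex.ofReal_re (‖_‖ ^ 2), ← h1]
  simp only [star_mul, sq, sq']
  congr 1
  have := tau_mul_comm_LA (mul_mem hq (star_mem hW))
    (mul_mem (mul_mem (mul_mem hq' hq') hW) hq)
  simpa only [mul_assoc] using this

/-- **The absolute value inequality.** -/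
theorem abs_ineq {a a' ξ ξ' W₁ W₂ : Op K} {ε : ℝ} (ha : a ∈ LA K) (ha' : a' ∈ LA K)
    (h : IsAbs a ξ ε) (h' : IsAbs a' ξ' ε) (m₁ : W₁ ∈ LA K) (m₂ : W₂ ∈ LA K) (n₁ : ‖W₁‖ ≤ 1)
    (n₂ : ‖W₂‖ ≤ 1) :
    ‖ξ' (dt 1) - (W₁ * ξ * star W₁) (dt 1)‖ ^ 2 ≤ 2 * ‖a (dt 1)‖ ^ 2 + 2 * ‖a' (dt 1)‖ ^ 2 + 4 * ε
      - 4 * (⟪a' (dt 1), (W₁ * a * star W₂) (dt 1)⟫_ℂ).re := by
  obtain ⟨q, hq, sq, hqq⟩ := h.root
  obtain ⟨q', hq', sq', hqq'⟩ := h'.root
  obtain ⟨v, hv, nv, hva⟩ := h.polar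
  obtain ⟨v', hv', nv', hva'⟩ := h'.polar
  set U : Op K := v * star W₂ * star v' with hU
  have hUm : U ∈ LA K := mul_mem (mul_mem hv (star_mem m₂)) (star_mem hv')
  have nU : ‖U‖ ≤ 1 := by
    refine (norm_mul_le _ _).trans (mul_le_one₀ ((norm_mul_le _ _).trans
      (mul_le_one₀ nv (norm_nonneg _) ?_)) (norm_nonneg _) ?_) <;> rwa [nstar]
  have e1 : ⟪a' (dt 1), (W₁ * a * star W₂) (dt 1)⟫_ℂ
      = ⟪star (q' * W₁ * q) (dt 1), (q * U * q') (dt 1)⟫_ℂ := by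
    rw [← tau_star_mul, ← tau_star_mul, star_star, ← hva, ← hva', ← hqq, ← hqq', hU]
    simp only [star_mul, sq']
    have := tau_mul_comm_LA (mul_mem (star_mem hv') hq')
      (mul_mem (mul_mem (mul_mem (mul_mem (mul_mem hq' m₁) hq) hq) hv) (star_mem m₂))
    simpa only [mul_assoc] using this
  have e2 := norm_sq_sandwich hq hq' m₁ sq sq'
  have e3 := norm_sq_sandwich hq' hq hUm sq' sq
  rw [hqq, hqq'] at e2 e3
  have e4 : (⟪a' (dt 1), (W₁ * a * star W₂) (dt 1)⟫_ℂ).re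
      ≤ ‖(q' * W₁ * q) (dt 1)‖ * ‖(q * U * q') (dt 1)‖ := by
    rw [e1, ← norm_star_hat_LA (mul_mem (mul_mem hq' m₁) hq)]
    exact (Complex.re_le_norm _).trans (norm_inner_le_norm _ _)
  have hc : ∀ {W x : Op K}, W ∈ LA K → x ∈ LA K → ‖W‖ ≤ 1 →
      ‖(W * x * star W) (dt 1)‖ ≤ ‖x (dt 1)‖ := fun {W x} hW hx nW => by
    refine (norm_hat_mul3 hx (star_mem hW)).trans ?_
    rw [nstar]
    exact (mul_le_of_le_one_right (by positivity) nW).trans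
      (mul_le_of_le_one_left (norm_nonneg _) nW)
  have e5 : ‖(q * U * q') (dt 1)‖ ^ 2 ≤ ‖ξ (dt 1)‖ * ‖ξ' (dt 1)‖ := by
    rw [e3]
    exact (Complex.re_le_norm _).trans ((norm_inner_le_norm _ _).trans
      (mul_le_mul_of_nonneg_left (hc hUm h'.mem nU) (norm_nonneg _)))
  have e6 := pow_le_pow_left₀ (norm_nonneg _) (hc m₁ h.mem n₁) 2
  have e7 := h.norm_hat_sq ha
  have e8 := h'.norm_hat_sq ha'
  rw [@norm_sub_sq ℂ, RCLike.re_to_complex, ← e2]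
  nlinarith [sq_nonneg (‖(q' * W₁ * q) (dt 1)‖ - ‖(q * U * q') (dt 1)‖),
    sq_nonneg (‖ξ (dt 1)‖ - ‖ξ' (dt 1)‖)]

/-- commutator norm -/
noncomputable def cn (M z : Op K) : ℝ := ‖M * z - z * M‖

omit [Group K] in
lemma cn_nonneg (M z : Op K) : 0 ≤ cn M z := norm_nonneg _

omit [Group K] in
lemma cn_sub (M z z' : Op K) : cn M (z - z') ≤ cn M z + cn M z' := by
  rw [cn, show M * (z - z') - (z - z') * M = (M * z - z * M) - (M * z' - z' * M) by noncomm_ring]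
  exact norm_sub_le _ _

omit [Group K] in
lemma cn_add (M z z' : Op K) : cn M (z + z') ≤ cn M z + cn M z' := by
  rw [cn, show M * (z + z') - (z + z') * M = (M * z - z * M) + (M * z' - z' * M) by noncomm_ring]
  exact norm_add_le _ _

omit [Group K] in
lemma cn_smul (M z : Op K) (c : ℂ) : cn M (c • z) = ‖c‖ * cn M z := by
  rw [cn, mul_smul_comm, smul_mul_assoc, ← smul_sub, norm_smul, cn]

omit [Group K] in
lemma cn_mul (M z z' : Op K) : cn M (z * z') ≤ cn M z * ‖z'‖ + ‖z‖ * cn M z' := by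
  rw [cn, show M * (z * z') - z * z' * M = (M * z - z * M) * z' + z * (M * z' - z' * M) by
    noncomm_ring]
  exact (norm_add_le _ _).trans (add_le_add (norm_mul_le _ _) (norm_mul_le _ _))

omit [Group K] in
lemma cn_apply (M z : Op K) (u : Ell2 K) : ‖z (M u) - M (z u)‖ ≤ cn M z * ‖u‖ := by
  rw [norm_sub_rev]
  exact le_opNorm (M * z - z * M) u

omit [Group K] in
lemma cn_le (M z : Op K) (hM : ‖M‖ ≤ 1) (hz : ‖z‖ ≤ 1) : cn M z ≤ 2 := by
  have h1 := (norm_mul_le M z).trans (mul_le_one₀ hM (norm_nonneg _) hz)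
  have h2 := (norm_mul_le z M).trans (mul_le_one₀ hz (norm_nonneg _) hM)
  linarith [norm_sub_le (M * z) (z * M), show cn M z = ‖M * z - z * M‖ from rfl]

/-- vectors that are bounded up to commutators with `M` -/
structure BN (M : Op K) (ζ : Ell2 K) : Prop where
  L : ∀ z ∈ LA K, ‖z ζ‖ ≤ 2 * ‖z (dt 1)‖ + cn M z
  R : ∀ z ∈ LA K, ‖Rm z ζ‖ ≤ 2 * ‖z (dt 1)‖ + cn M (star z)

theorem IsAbs.bn {a ξ y M : Op K} {ε : ℝ} (ha : a ∈ LA K) (h : IsAbs a ξ ε) (hε : ε ≤ 1)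
    (hy : y ∈ LA K) (ny : ‖y‖ ≤ 1) (nM : ‖M‖ ≤ 1) (hM : a (dt 1) = M (y (dt 1))) :
    BN M (ξ (dt 1)) := by
  have key : ∀ z ∈ LA K, ‖ξ (star z (dt 1))‖ ≤ 2 * ‖z (dt 1)‖ + cn M z := fun z hz => by
    have h1 := norm_sq_of_sq h.sa h.sq (star z (dt 1))
    rw [← mul_apply_eq_comp (star a), ← star_mul, norm_star_hat_LA (mul_mem hz ha),
      norm_star_hat_LA hz, mul_apply_eq_comp, hM] at h1
    have h2 : ‖M (z (y (dt 1)))‖ ≤ ‖z (dt 1)‖ :=
      ((M.le_of_opNorm_le nM _).trans_eq (one_mul _)).trans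
        ((nhm hz hy).trans (mul_le_of_le_one_right (norm_nonneg _) ny))
    have h3 : ‖z (M (y (dt 1))) - M (z (y (dt 1)))‖ ≤ cn M z := (cn_apply M z _).trans
      (mul_le_of_le_one_right (cn_nonneg _ _) ((norm_hat_le y).trans ny))
    have h4 : ‖z (M (y (dt 1)))‖ ≤ ‖z (dt 1)‖ + cn M z := by
      linarith [norm_le_norm_add_norm_sub' (z (M (y (dt 1)))) (M (z (y (dt 1))))]
    have h5 := pow_le_pow_left₀ (norm_nonneg _) h4 2
    have h6 := cn_nonneg M z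
    have h7 := norm_nonneg (z (dt 1))
    refine (pow_le_pow_iff_left₀ (norm_nonneg _) (by positivity) two_ne_zero).1 ?_
    nlinarith [mul_nonneg h6 h7, sq_nonneg ‖z (dt 1)‖]
  refine ⟨fun z hz => ?_, fun z hz => ?_⟩
  · rw [← mul_apply_eq_comp, ← norm_star_hat_LA (mul_mem hz h.mem), star_mul, h.sa]
    exact key z hz
  · rw [Rm_apply_LA hz h.mem, ← norm_star_hat_LA hz]
    simpa using key _ (star_mem hz)

/-- trace form of the concentration of an absolute value -/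
theorem IsAbs.tau_le {a ξ p X : Op K} {ε : ℝ} (h : IsAbs a ξ ε) (hε : 0 ≤ ε) (hp : p ∈ LA K)
    (pp : p * p = p) (np : ‖p‖ ≤ 1) (hX : X ∈ LA K) (c : ℂ) :
    ‖tau (X * (a * star a)) - c ^ 2 * tau (X * p)‖
      ≤ ‖X‖ * ((‖ξ (dt 1)‖ + ‖c‖) * ‖ξ (dt 1) - c • p (dt 1)‖ + ε) := by
  set d : Op K := ξ - c • p with hd
  have hdm : d ∈ LA K := sub_mem h.mem (SMulMemClass.smul_mem _ hp)
  have e : X * (a * star a) - c ^ 2 • (X * p) = X * d * ξ + c • (X * p * d) - (ε : ℂ) • X := by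
    have : a * star a = ξ * ξ - (ε : ℂ) • 1 := by rw [h.sq, add_sub_cancel_right]
    rw [this, hd]
    simp only [mul_sub, sub_mul, mul_smul_comm, smul_mul_assoc, smul_sub, smul_smul, mul_assoc, pp,
      mul_one, pow_two]
    abel
  have e1 : ‖tau (X * d * ξ)‖ ≤ ‖X‖ * (‖ξ (dt 1)‖ * ‖d (dt 1)‖) := by
    rw [tau_mul_comm_LA (mul_mem hX hdm) h.mem, ← h.sa, tau_star_mul, h.sa]
    refine (norm_inner_le_norm _ _).trans ?_
    have := le_opNorm X (d (dt 1))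
    rw [mul_apply_eq_comp]
    nlinarith [norm_nonneg (ξ (dt 1))]
  have e2 : ‖tau (X * p * d)‖ ≤ ‖X‖ * ‖d (dt 1)‖ := by
    refine (norm_tau_le _).trans ((le_opNorm (X * p) _).trans ?_)
    exact mul_le_mul_of_nonneg_right
      ((norm_mul_le _ _).trans (mul_le_of_le_one_right (norm_nonneg _) np)) (norm_nonneg _)
  have e3 : ‖tau X‖ ≤ ‖X‖ := (norm_tau_le _).trans (norm_hat_le _)
  rw [← tau_smul, ← tau_sub, e, tau_sub, tau_add, tau_smul, tau_smul]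
  refine (norm_sub_le _ _).trans ((add_le_add (norm_add_le _ _) le_rfl).trans ?_)
  rw [norm_mul, norm_mul, Complex.norm_real, Real.norm_of_nonneg hε,
    show ξ (dt 1) - c • p (dt 1) = d (dt 1) from rfl]
  nlinarith [norm_nonneg c, mul_le_mul_of_nonneg_left e2 (norm_nonneg c),
    mul_le_mul_of_nonneg_left e3 hε]

/-- the `L²` norm of `g` is controlled by a trace against a bounded operator -/
theorem IsAbs.norm_sq_le {g ξ p y u : Op K} {ε η : ℝ} (hg : g ∈ LA K) (h : IsAbs g ξ ε)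
    (hε : 0 ≤ ε) (hp : p ∈ LA K) (sp : star p = p) (np : ‖p‖ ≤ 1) (hy : y ∈ LA K) (ny : ‖y‖ ≤ 1)
    (hyy : star y * y = p) (hu : u ∈ LA K) (ng : ‖g (dt 1)‖ ≤ 1) (hη : 0 < η) (c : ℂ) :
    ∃ X ∈ LA K, ‖X‖ ≤ η⁻¹ ∧ ‖g (dt 1)‖ ^ 2 ≤ ‖tau (X * (g * star y))‖
      + 2 * ‖ξ (dt 1) - c • p (dt 1)‖ + ‖c‖ * η + ‖g (dt 1) - Rm u (g (dt 1))‖
      + η⁻¹ * ‖(u - p) (dt 1)‖ := by
  have hη2 : (0 : ℂ) ≤ (η ^ 2 : ℝ) := by exact_mod_cast sq_nonneg η
  set T : Op K := ((η ^ 2 : ℝ) : ℂ) • (g * star g) with hT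
  have hT0 : 0 ≤ T := smul_nonneg hη2 (mul_star_self_nonneg g)
  have hTm : T ∈ LA K := SMulMemClass.smul_mem _ (mul_mem hg (star_mem hg))
  obtain ⟨s, hs1, hs2, ns, ns2, -⟩ := exists_resolvent hT0
  have h1T : 1 + T ∈ LA K := add_mem (one_mem _) hTm
  have hsm : s ∈ LA K := fun k => by
    calc rho K k * s = s * (1 + T) * rho K k * s := by rw [hs1, one_mul]
      _ = s * rho K k * ((1 + T) * s) := by rw [mul_assoc s, ← h1T k]; simp only [mul_assoc]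
      _ = _ := by rw [hs2, mul_one]
  have ss : star s = s := by
    have h2 : star (1 + T) = 1 + T := by rw [star_add, star_one, IsSelfAdjoint.of_nonneg hT0]
    refine left_inv_eq_right_inv (a := 1 + T) ?_ hs2
    rw [← h2, ← star_mul, hs2, star_one]
  have nS : ‖s‖ ≤ 1 := opNorm_le_bound _ zero_le_one fun v => by simpa using ns v
  have nb : ‖s * g‖ ≤ η⁻¹ := by
    rw [← nstar, star_mul, ss]
    refine opNorm_le_bound _ (by positivity) fun v => ?_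
    have h2 := ns2 v
    rw [hT, smul_apply, inner_smul_right, mul_apply_eq_comp, ← adjoint_inner_left,
      ← star_eq_adjoint, inner_self_eq_norm_sq_to_K] at h2
    have h3 : η ^ 2 * ‖star g (s v)‖ ^ 2 ≤ ‖v‖ ^ 2 := by
      simpa [← Complex.ofReal_pow] using h2
    rw [mul_apply_eq_comp, ← div_eq_inv_mul, le_div_iff₀ hη]
    refine (pow_le_pow_iff_left₀ (by positivity) (norm_nonneg _) two_ne_zero).1 ?_
    rw [mul_pow, mul_comm]; exact h3
  set r : Op K := 1 - s with hr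
  have hrm : r ∈ LA K := sub_mem (one_mem _) hsm
  have sr : star r = r := by rw [hr, star_sub, star_one, ss]
  have nr : ‖r‖ ≤ 2 := (norm_sub_le _ _).trans (by linarith [n1 (K := K)])
  have nr2 : ‖r (dt 1)‖ ≤ η := by
    have h2 : r = ((η ^ 2 : ℝ) : ℂ) • (s * g * star g) := by
      rw [hr, ← hs1, mul_add, mul_one, add_sub_cancel_left, hT, mul_smul_comm, mul_assoc]
    rw [h2, smul_apply, norm_smul, Complex.norm_real, Real.norm_of_nonneg (sq_nonneg η),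
      mul_apply_eq_comp]
    have h3 := (s * g).le_of_opNorm_le nb (star g (dt 1))
    rw [norm_star_hat_LA hg] at h3
    calc _ ≤ η ^ 2 * (η⁻¹ * 1) := by gcongr; exact h3.trans (by gcongr)
      _ = η := by field_simp
  have e1 : ‖r (g (dt 1))‖ ≤ 2 * ‖ξ (dt 1) - c • p (dt 1)‖ + ‖c‖ * η := by
    have h2 : ‖r (g (dt 1))‖ ≤ ‖r (ξ (dt 1))‖ := by
      rw [← mul_apply_eq_comp, ← mul_apply_eq_comp, ← norm_star_hat_LA (mul_mem hrm hg),
        ← norm_star_hat_LA (mul_mem hrm h.mem), star_mul, star_mul, sr, h.sa, mul_apply_eq_comp,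
        mul_apply_eq_comp]
      refine (pow_le_pow_iff_left₀ (norm_nonneg _) (norm_nonneg _) two_ne_zero).1 ?_
      rw [norm_sq_of_sq h.sa h.sq]
      exact le_add_of_nonneg_right (by positivity)
    have h3 : r (ξ (dt 1)) = r (ξ (dt 1) - c • p (dt 1)) + c • r (p (dt 1)) := by simp
    have h4 : ‖r (p (dt 1))‖ ≤ η :=
      (nhm hrm hp).trans ((mul_le_of_le_one_right (norm_nonneg _) np).trans nr2)
    rw [h3] at h2
    refine h2.trans ((norm_add_le _ _).trans (add_le_add (r.le_of_opNorm_le nr _) ?_))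
    rw [norm_smul]
    exact mul_le_mul_of_nonneg_left h4 (norm_nonneg _)
  set b : Op K := s * g with hb
  have hbm : b ∈ LA K := mul_mem hsm hg
  refine ⟨y * star b, mul_mem hy (star_mem hbm), (norm_mul_le _ _).trans
    ((mul_le_of_le_one_left (norm_nonneg _) ny).trans (by rwa [nstar])), ?_⟩
  have e2 : tau (y * star b * (g * star y)) = ⟪b (p (dt 1)), g (dt 1)⟫_ℂ := by
    rw [← mul_apply_eq_comp, ← tau_star_mul, star_mul b p, sp, ← hyy]
    have := tau_mul_comm_LA (mul_mem (mul_mem hy (star_mem hbm)) hg) (star_mem hy)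
    simpa only [mul_assoc] using this
  have e3 : (‖g (dt 1)‖ : ℂ) ^ 2 = ⟪b (p (dt 1)), g (dt 1)⟫_ℂ + ⟪r (g (dt 1)), g (dt 1)⟫_ℂ
      + ⟪b (dt 1), g (dt 1) - Rm u (g (dt 1))⟫_ℂ + ⟪b (star (u - p) (dt 1)), g (dt 1)⟫_ℂ := by
    have h2 : ⟪b (dt 1), Rm u (g (dt 1))⟫_ℂ = ⟪b (star u (dt 1)), g (dt 1)⟫_ℂ := by
      rw [← Rm_apply_LA (star_mem hu) hbm, Rm_star, star_eq_adjoint, adjoint_inner_left]
    have h3 : r (g (dt 1)) = g (dt 1) - b (dt 1) := rfl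
    have h4 : b (star (u - p) (dt 1)) = b (star u (dt 1)) - b (p (dt 1)) := by
      rw [star_sub, sp, ← map_sub]; rfl
    rw [inner_sub_right, h2, h3, h4, inner_sub_left, inner_sub_left, inner_self_eq_norm_sq_to_K]
    simp only [Complex.coe_algebraMap]
    ring
  have e4 : ‖b (dt 1)‖ ≤ 1 := ((s.le_of_opNorm_le nS _).trans_eq (one_mul _)).trans ng
  have e5 : ‖b (star (u - p) (dt 1))‖ ≤ η⁻¹ * ‖(u - p) (dt 1)‖ := by
    rw [← norm_star_hat_LA (sub_mem hu hp)]; exact b.le_of_opNorm_le nb _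
  have e6 : ∀ v : Ell2 K, ‖⟪v, g (dt 1)⟫_ℂ‖ ≤ ‖v‖ := fun v =>
    (norm_inner_le_norm _ _).trans (mul_le_of_le_one_right (norm_nonneg _) ng)
  have e7 : ‖⟪b (dt 1), g (dt 1) - Rm u (g (dt 1))⟫_ℂ‖ ≤ ‖g (dt 1) - Rm u (g (dt 1))‖ :=
    (norm_inner_le_norm _ _).trans (mul_le_of_le_one_left (norm_nonneg _) e4)
  have e8 : ‖g (dt 1)‖ ^ 2 = ‖(‖g (dt 1)‖ : ℂ) ^ 2‖ := by simp
  rw [e8, e3, e2]
  refine (norm_add_le _ _).trans ((add_le_add norm_add₃_le le_rfl).trans ?_)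
  linarith [e6 (r (g (dt 1))), e6 (b (star (u - p) (dt 1)))]

end Crest.Agent.N111.Cn
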