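import Crest.Agent.N111.C.Abs

/-!
# Row 111, module C: admissible approximants, function form of the engine.
-/

set_option autoImplicit false

namespace Crest.Agent.N111.Cn

open MeasureTheory Topology Filter ContinuousLinearMap
open scoped InnerProductSpace ComplexConjugate
open Crest.OperatorAlgebra

/-- diagonal sequences -/
theorem exists_diag {S : Type} [Countable S] [Nonempty S] {f : ℕ → ℕ → S → ℝ}
    (h : ∀ t s, Tendsto (fun n => f n t s) atTop (𝓝 0)) :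
    ∃ t : ℕ → ℕ, Tendsto t atTop atTop ∧ ∀ s, Tendsto (fun n => f n (t n) s) atTop (𝓝 0) := by
  classical
  obtain ⟨e, he⟩ := exists_surjective_nat S
  have h1 : ∀ t : ℕ, ∃ N, ∀ n ≥ N, ∀ j ∈ Finset.range (t + 1), |f n t (e j)| ≤ 1 / ((t : ℝ) + 1) :=
    fun t => eventually_atTop.1 ((Finset.eventually_all _).2 fun j _ =>
      (show Tendsto (fun n => |f n t (e j)|) atTop (𝓝 0) by simpa using (h t (e j)).abs).eventually
        (ge_mem_nhds Nat.one_div_pos_of_nat))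
  choose N hN using h1
  let t : ℕ → ℕ := fun n => Nat.findGreatest (fun t => N t ≤ n) n
  have ht : Tendsto t atTop atTop := tendsto_atTop.2 fun T => by
    filter_upwards [eventually_ge_atTop T, eventually_ge_atTop (N T)] with n h1 h2
    exact Nat.le_findGreatest h1 h2
  refine ⟨t, ht, fun s => ?_⟩
  obtain ⟨j, rfl⟩ := he s
  refine squeeze_zero_norm' ?_ (tendsto_one_div_add_atTop_nhds_zero_nat.comp ht)
  filter_upwards [eventually_ge_atTop (N 0), ht.eventually (eventually_ge_atTop j)] with n h1 h2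
  exact hN _ n (Nat.findGreatest_spec (P := fun t => N t ≤ n) (Nat.zero_le n) h1) j
    (Finset.mem_range.2 (Nat.lt_succ_of_le h2))

variable {K : Type} [Group K]

lemma slow_lam {Φ : ℕ → K → ℂ} (hb : ∀ n g, ‖Φ n g‖ ≤ 1) (h : Slow Φ) {z : Op K}
    (hz : z ∈ (lam K).span) : Tendsto (fun n => cn (mulOp (Φ n)) z) atTop (𝓝 0) := by
  refine URep.span_induction (p := fun z => Tendsto (fun n => cn (mulOp (Φ n)) z) atTop (𝓝 0))
    (by simp [cn]) (fun s => ?_) (fun S T hS hT => ?_) (fun c S hS => ?_) hz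
  · refine tendsto_order.2 ⟨fun a ha => Eventually.of_forall fun n => ha.trans_le (cn_nonneg _ _),
      fun a ha => (h s _ (half_pos ha)).mono fun n hn => lt_of_le_of_lt ?_ (half_lt_self ha)⟩
    have hB : Bdd (Φ n) := ⟨1, hb n⟩
    refine opNorm_le_bound _ (half_pos ha).le fun v => ?_
    rw [← (lam K).norm_map s v]
    refine norm_le_of_apply_le (half_pos ha).le fun g => ?_
    have := (hn (s⁻¹ * g)).1
    rw [mul_inv_cancel_left] at this
    simp only [sub_apply, mul_apply_eq_comp, l2_sub_apply, hB.mulOp_apply, lam_apply]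
    rw [← sub_mul, norm_mul]
    gcongr
  · exact squeeze_zero (fun _ => cn_nonneg _ _) (fun _ => cn_add _ _ _) (by simpa using hS.add hT)
  · simpa only [cn_smul, mul_zero] using hS.const_mul ‖c‖

lemma slow_Rm {Φ : ℕ → K → ℂ} (hb : ∀ n g, ‖Φ n g‖ ≤ 1) (h : Slow Φ) {z : Op K}
    (hz : z ∈ (lam K).span) : Tendsto (fun n => cn (mulOp (Φ n)) (Rm z)) atTop (𝓝 0) := by
  refine URep.span_induction (p := fun z => Tendsto (fun n => cn (mulOp (Φ n)) (Rm z)) atTop (𝓝 0))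
    (by simp [cn]) (fun s => ?_) (fun S T hS hT => ?_) (fun c S hS => ?_) hz
  · refine tendsto_order.2 ⟨fun a ha => Eventually.of_forall fun n => ha.trans_le (cn_nonneg _ _),
      fun a ha => (h s _ (half_pos ha)).mono fun n hn => lt_of_le_of_lt ?_ (half_lt_self ha)⟩
    have hB : Bdd (Φ n) := ⟨1, hb n⟩
    rw [Rm_lam]
    refine opNorm_le_bound _ (half_pos ha).le fun v => ?_
    rw [← (rho K).norm_map s⁻¹ v]
    refine norm_le_of_apply_le (half_pos ha).le fun g => ?_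
    have := (hn (g * s⁻¹)).2
    rw [inv_mul_cancel_right] at this
    simp only [sub_apply, mul_apply_eq_comp, l2_sub_apply, hB.mulOp_apply, rho_apply]
    rw [← sub_mul, norm_mul]
    gcongr
  · rw [Rm_add]
    exact squeeze_zero (fun _ => cn_nonneg _ _) (fun _ => cn_add _ _ _) (by simpa using hS.add hT)
  · simpa only [Rm_smul, cn_smul, mul_zero] using hS.const_mul ‖c‖

/-- `z n` is an admissible approximation of `T` -/
structure Ap (M z : ℕ → Op K) (T : Op K) : Prop where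
  mem : ∀ n, z n ∈ LA K
  memT : T ∈ LA K
  bdd : ∃ C, ∀ n, ‖z n‖ ≤ C
  c1 : Tendsto (fun n => cn (M n) (z n)) atTop (𝓝 0)
  c2 : Tendsto (fun n => cn (M n) (star (z n))) atTop (𝓝 0)
  lim : Tendsto (fun n => ‖(z n - T) (dt 1)‖) atTop (𝓝 0)

variable {M z z' : ℕ → Op K} {T T' : Op K}

lemma Ap.const {Φ : ℕ → K → ℂ} (hb : ∀ n g, ‖Φ n g‖ ≤ 1) (h : Slow Φ) (hT : T ∈ (lam K).span) :
    Ap (fun n => mulOp (Φ n)) (fun _ => T) T :=
  ⟨fun _ => span_lam_le hT, span_lam_le hT, ⟨_, fun _ => le_rfl⟩, slow_lam hb h hT,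
    slow_lam hb h (star_mem hT), by simp⟩

lemma Ap.adj (h : Ap M z T) : Ap M (fun n => star (z n)) (star T) := by
  refine ⟨fun n => star_mem (h.mem n), star_mem h.memT,
    h.bdd.imp fun C hC n => by rw [nstar]; exact hC n, h.c2, by simpa using h.c1, ?_⟩
  simpa only [← star_sub, norm_star_hat_LA (sub_mem (h.mem _) h.memT)] using h.lim

omit [Group K] in
lemma tendsto_cn_mul {C C' : ℝ} (hC : ∀ n, ‖z n‖ ≤ C) (hC' : ∀ n, ‖z' n‖ ≤ C')
    (h : Tendsto (fun n => cn (M n) (z n)) atTop (𝓝 0))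
    (h' : Tendsto (fun n => cn (M n) (z' n)) atTop (𝓝 0)) :
    Tendsto (fun n => cn (M n) (z n * z' n)) atTop (𝓝 0) := by
  refine squeeze_zero (fun _ => cn_nonneg _ _) (fun n => (cn_mul _ _ _).trans (add_le_add
    (mul_le_mul_of_nonneg_left (hC' n) (cn_nonneg _ _))
    (mul_le_mul_of_nonneg_right (hC n) (cn_nonneg _ _)))) ?_
  simpa using (h.mul_const C').add (h'.const_mul C)

lemma Ap.mul (h : Ap M z T) (h' : Ap M z' T') : Ap M (fun n => z n * z' n) (T * T') := by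
  obtain ⟨C, hC⟩ := h.bdd
  obtain ⟨C', hC'⟩ := h'.bdd
  refine ⟨fun n => mul_mem (h.mem n) (h'.mem n), mul_mem h.memT h'.memT,
    ⟨C * C', fun n => (norm_mul_le _ _).trans
      (mul_le_mul (hC n) (hC' n) (norm_nonneg _) ((norm_nonneg _).trans (hC n)))⟩,
    tendsto_cn_mul hC hC' h.c1 h'.c1, ?_, ?_⟩
  · simp only [star_mul]
    exact tendsto_cn_mul (fun n => by rw [nstar]; exact hC' n) (fun n => by rw [nstar]; exact hC n)
      h'.c2 h.c2
  · refine squeeze_zero (fun _ => norm_nonneg _) (fun n => ?_)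
      (by simpa using (h'.lim.const_mul C).add (h.lim.mul_const ‖T'‖))
    rw [show z n * z' n - T * T' = z n * (z' n - T') + (z n - T) * T' by noncomm_ring, add_apply,
      mul_apply_eq_comp, mul_apply_eq_comp]
    exact (norm_add_le _ _).trans (add_le_add ((z n).le_of_opNorm_le (hC n) _)
      (nhm (sub_mem (h.mem n) h.memT) h'.memT))

lemma Ap.hat (h : Ap M z T) (h' : Ap M z' T') {ε : ℝ} (hε : 0 < ε) :
    ∀ᶠ n in atTop, ‖(z n - z' n) (dt 1)‖ ≤ ‖(T - T') (dt 1)‖ + ε := by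
  filter_upwards [h.lim.eventually (ge_mem_nhds (half_pos hε)),
    h'.lim.eventually (ge_mem_nhds (half_pos hε))] with n h1 h2
  rw [show z n - z' n = (T - T') + (z n - T) - (z' n - T') by abel, sub_apply, add_apply]
  linarith [norm_sub_le ((T - T') (dt 1) + (z n - T) (dt 1)) ((z' n - T') (dt 1)),
    norm_add_le ((T - T') (dt 1)) ((z n - T) (dt 1))]

/-- admissible approximants act alike on `BN` vectors -/
theorem Ap.close (h : Ap M z T) (h' : Ap M z' T') {ε : ℝ} (hε : 0 < ε) :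
    ∀ᶠ n in atTop, ∀ ζ, BN (M n) ζ → ‖z n ζ - z' n ζ‖ ≤ 2 * ‖(T - T') (dt 1)‖ + ε ∧
      ‖Rm (z n) ζ - Rm (z' n) ζ‖ ≤ 2 * ‖(T - T') (dt 1)‖ + ε := by
  have h4 : 0 < ε / 4 := by positivity
  filter_upwards [h.hat h' h4, h.c1.eventually (ge_mem_nhds h4), h'.c1.eventually (ge_mem_nhds h4),
    h.c2.eventually (ge_mem_nhds h4), h'.c2.eventually (ge_mem_nhds h4)] with n a1 a2 a3 a4 a5 ζ hζ
  have b1 := hζ.L _ (sub_mem (h.mem n) (h'.mem n))
  have b2 := hζ.R _ (sub_mem (h.mem n) (h'.mem n))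
  rw [Rm_sub, star_sub] at b2
  exact ⟨b1.trans (by linarith [cn_sub (M n) (z n) (z' n)]),
    b2.trans (by linarith [cn_sub (M n) (star (z n)) (star (z' n))])⟩

theorem Ap.close' (h : Ap M z T) (h' : Ap M z' T) {ζ : ℕ → Ell2 K} (hζ : ∀ n, BN (M n) (ζ n)) :
    Tendsto (fun n => ‖z n (ζ n) - z' n (ζ n)‖) atTop (𝓝 0) ∧
      Tendsto (fun n => ‖Rm (z n) (ζ n) - Rm (z' n) (ζ n)‖) atTop (𝓝 0) := by
  constructor <;> refine tendsto_order.2 ⟨fun a ha => Eventually.of_forall fun n =>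
    ha.trans_le (norm_nonneg _), fun a ha => (h.close h' (half_pos ha)).mono fun n hn => ?_⟩
  · simpa using (hn _ (hζ n)).1.trans_lt (by simpa)
  · simpa using (hn _ (hζ n)).2.trans_lt (by simpa)

theorem exists_ap {Φ : ℕ → K → ℂ} (hb : ∀ n g, ‖Φ n g‖ ≤ 1) (h : Slow Φ) {w : Γ → Op K}
    (hw : ∀ γ, w γ ∈ LA K) (nw : ∀ γ, ‖w γ‖ ≤ 1) : ∃ W : ℕ → Γ → Op K, (∀ n γ, ‖W n γ‖ ≤ 1) ∧
      (∀ γ, Ap (fun n => mulOp (Φ n)) (fun n => W n γ) (w γ)) ∧
      ∀ γ, Tendsto (fun n => cn (mulOp (Φ n)) (Rm (star (W n γ)))) atTop (𝓝 0) := by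
  choose u hu nu lu using fun (t : ℕ) γ =>
    exists_span_contraction (hw γ) (nw γ) (Nat.one_div_pos_of_nat (n := t))
  obtain ⟨t, ht, hd⟩ := exists_diag (f := fun n t γ => cn (mulOp (Φ n)) (u t γ)
    + cn (mulOp (Φ n)) (star (u t γ)) + cn (mulOp (Φ n)) (Rm (star (u t γ)))) fun t γ => by
      simpa using ((slow_lam hb h (hu t γ)).add (slow_lam hb h (star_mem (hu t γ)))).add
        (slow_Rm hb h (star_mem (hu t γ)))
  refine ⟨fun n γ => u (t n) γ, fun n γ => nu _ _, fun γ => ⟨fun n => span_lam_le (hu _ _), hw γ,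
    ⟨1, fun n => nu _ _⟩, ?_, ?_, squeeze_zero (fun _ => norm_nonneg _) (fun n => (lu _ _).le)
      (tendsto_one_div_add_atTop_nhds_zero_nat.comp ht)⟩, fun γ => ?_⟩ <;>
    refine squeeze_zero (fun _ => cn_nonneg _ _) (fun n => ?_) (hd γ) <;>
    linarith [cn_nonneg (mulOp (Φ n)) (u (t n) γ), cn_nonneg (mulOp (Φ n)) (star (u (t n) γ)),
      cn_nonneg (mulOp (Φ n)) (Rm (star (u (t n) γ)))]

/-! ### fields -/

lemma sm_comp {E S Y : Type*} [TopologicalSpace E] [Countable S] [MeasurableSpace S]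
    [DiscreteMeasurableSpace S] [MeasurableSpace Y] {c : Y → S} (hc : Measurable c) (f : S → E) :
    StronglyMeasurable fun x => f (c x) :=
  (StronglyMeasurable.of_discrete (f := f)).comp_measurable hc

lemma intg {E S : Type*} [NormedAddCommGroup E] [Countable S] [MeasurableSpace S]
    [DiscreteMeasurableSpace S] {c : X → S} (hc : Measurable c) {f : S → E} {C : ℝ}
    (hf : ∀ s, ‖f s‖ ≤ C) : Integrable (fun x => f (c x)) μ :=
  Integrable.of_bound (sm_comp hc f).aestronglyMeasurable C (Eventually.of_forall fun _ => hf _)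

lemma BN.integral {N : Op K} {v : X → Ell2 K} (hv : Integrable v μ)
    (h : ∀ x, BN N (v x)) : BN N (∫ x, v x ∂μ) := by
  refine ⟨fun z hz => ?_, fun z hz => ?_⟩ <;> rw [← ContinuousLinearMap.integral_comp_comm _ hv]
  · simpa using norm_integral_le_of_norm_le_const (μ := μ)
      (Eventually.of_forall fun x => (h x).L z hz)
  · simpa using norm_integral_le_of_norm_le_const (μ := μ)
      (Eventually.of_forall fun x => (h x).R z hz)

/-- the engine for honest functions bounded by `2` -/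
theorem engine_fun {E : Type} [NormedAddCommGroup E] [InnerProductSpace ℂ E] [CompleteSpace E]
    {v : ℕ → X → E} (hm : ∀ n, StronglyMeasurable (v n)) (hb : ∀ n x, ‖v n x‖ ≤ 2)
    {B : ℕ → Γ → E →L[ℂ] E} (hB : ∀ n γ, ‖B n γ‖ ≤ 1)
    (hM : ∀ γ γ', ∀ ε > 0, ∀ᶠ n in atTop, ∀ x,
      ‖B n γ (B n γ' (v n x)) - B n (γ * γ') (v n x)‖ ≤ ε)
    (hI : ∀ h : G, (∃ b, h = tv (show (1 : Fin 3) ≠ 2 by decide) b ∨
      h = tv (show (2 : Fin 3) ≠ 1 by decide) b) →
      Tendsto (fun n => ∫ x, ‖v n (h • x) - B n (coc h x) (v n x)‖ ^ 2 ∂μ) atTop (𝓝 0)) :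
    Tendsto (fun n => ∫ x, ‖v n x - ∫ y, v n y ∂μ‖ ∂μ) atTop (𝓝 0) ∧
      ∀ γ, Tendsto (fun n => ‖B n γ (∫ y, v n y ∂μ) - ∫ y, v n y ∂μ‖) atTop (𝓝 0) := by
  have hL : ∀ n, MemLp (fun x => (2⁻¹ : ℂ) • v n x) 2 μ := fun n =>
    MemLp.of_bound ((hm n).const_smul _).aestronglyMeasurable 1 (Eventually.of_forall fun x => by
      rw [norm_smul]; have := hb n x; simp; linarith)
  let ξ : ℕ → L2X E := fun n => (hL n).toLp
  have hξ : ∀ n, ξ n =ᵐ[μ] fun x => (2⁻¹ : ℂ) • v n x := fun n => (hL n).coeFn_toLp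
  have hn : ∀ u : E, ‖(2⁻¹ : ℂ) • u‖ = 2⁻¹ * ‖u‖ := fun u => by rw [norm_smul]; simp
  have hE : Eng.EData atTop ξ B := ⟨fun n => (hξ n).mono fun x hx => by
      rw [hx, hn]; linarith [hb n x], hB, fun γ γ' => by
    refine tendsto_order.2 ⟨fun a ha => Eventually.of_forall fun n => ha.trans_le (norm_nonneg _),
      fun a ha => (hM γ γ' a ha).mono fun n h1 => lt_of_le_of_lt ?_ (half_lt_self ha)⟩
    refine (norm_le_of_support _ MeasurableSet.univ (measure_ne_top _ _) (half_pos ha).le ?_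
      (Eventually.of_forall fun x hx => absurd trivial hx)).trans_eq (by simp)
    filter_upwards [amp_coeFn (B n γ * B n γ' - B n (γ * γ')) (ξ n), hξ n] with x h2 h3
    rw [h2, h3, map_smul, hn]
    have : ‖(B n γ * B n γ' - B n (γ * γ')) (v n x)‖ ≤ a := h1 x
    linarith⟩
  have hinv : ∀ h : G, (∃ b, h = tv (show (1 : Fin 3) ≠ 2 by decide) b ∨
      h = tv (show (2 : Fin 3) ≠ 1 by decide) b) → Eng.Inv atTop ξ B h := fun h hh => by
    have h1 : ∀ n, Eng.df (B n) (ξ n) h ^ 2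
        = 2⁻¹ ^ 2 * ∫ x, ‖v n (h • x) - B n (coc h x) (v n x)‖ ^ 2 ∂μ := fun n => by
      rw [Eng.df_sq (hB n), ← integral_const_mul]
      refine integral_congr_ae ?_
      filter_upwards [hξ n, ae_smul h (hξ n)] with x h2 h3
      rw [h2, h3, map_smul, ← smul_sub, hn, mul_pow]
    have h2 := ((hI h hh).const_mul (2⁻¹ ^ 2)).sqrt
    simp only [← h1, mul_zero, Real.sqrt_zero] at h2
    exact h2.congr fun n => Real.sqrt_sq (norm_nonneg _)
  obtain ⟨e1, e2⟩ := hE.engine (fun b => hinv _ ⟨b, Or.inl rfl⟩) (fun b => hinv _ ⟨b, Or.inr rfl⟩)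
  have hi : ∀ n, ∫ x, ξ n x ∂μ = (2⁻¹ : ℂ) • ∫ x, v n x ∂μ := fun n => by
    rw [integral_congr_ae (hξ n), integral_smul]
  simp only [hi] at e1 e2
  refine ⟨squeeze_zero (fun n => integral_nonneg fun _ => norm_nonneg _) (fun n => ?_)
    (by simpa using e1.const_mul 2), fun γ => ?_⟩
  · set ζ := ξ n - cst E ((2⁻¹ : ℂ) • ∫ x, v n x ∂μ)
    have h1 : ∫ x, ‖v n x - ∫ y, v n y ∂μ‖ ∂μ = 2 * ∫ x, ‖ζ x‖ ∂μ := by
      rw [← integral_const_mul]
      refine integral_congr_ae ?_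
      filter_upwards [Lp.coeFn_sub (ξ n) (cst E ((2⁻¹ : ℂ) • ∫ x, v n x ∂μ)), hξ n,
        cst_coeFn ((2⁻¹ : ℂ) • ∫ x, v n x ∂μ)] with x h1 h2 h3
      rw [h1, Pi.sub_apply, h2, h3, ← smul_sub, hn]; ring
    rw [h1, integral_norm_eq_lintegral_enorm (Lp.aestronglyMeasurable ζ), Lp.norm_def,
      ← eLpNorm_one_eq_lintegral_enorm]
    gcongr
    · exact Lp.eLpNorm_ne_top ζ
    · exact eLpNorm_le_eLpNorm_of_exponent_le one_le_two (Lp.aestronglyMeasurable ζ)
  · have := (e2 γ).const_mul 2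
    simp only [map_smul, ← smul_sub, hn] at this
    simpa using this

end Crest.Agent.N111.Cn
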