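import Crest.Agent.N111.C.Defs
import Crest.Agent.N111.Lib.Geo
import Crest.Agent.N111.Grp.NoInv

/-!
# Row 111, module C: no right invariant mean at infinity on left slowly varying functions.

With `A μ = log (2 nm μ)` the cutoff `θ = (2 A μ - A μ⁻¹) / (A μ + A μ⁻¹)` takes values in `[0, 1]`,
is two-sided slowly varying, `θ + θ ∘ dl = 1`, and `θ μ * nm μ⁻¹ / (nm μ)² → 0`.
-/

set_option autoImplicit false
set_option maxHeartbeats 400000

namespace Crest.Agent.N111.Cn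

open Topology Filter Matrix NoInv

namespace NM

/-! ### the weights of `hᵀ h` -/

/-- `hᵀ h` -/
def qq (h : G) : Matrix (Fin 3) (Fin 3) ℝ := (h : Matrix (Fin 3) (Fin 3) ℝ)ᵀ * h

theorem qq_psd (h : G) : (qq h).PosSemidef := by
  simpa [qq] using Matrix.posSemidef_conjTranspose_mul_self (h : Matrix (Fin 3) (Fin 3) ℝ)

theorem qq_diag (h : G) (i : Fin 3) : qq h i i = ∑ k, h k i ^ 2 := by
  simp only [qq, Matrix.mul_apply, transpose_apply, sq]

theorem trace_qq (h : G) : trace (qq h) = ∑ l, ∑ k, h k l ^ 2 := by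
  simp only [trace, diag_apply, qq_diag]

theorem sq_nm_le (h : G) : nm h ^ 2 ≤ trace (qq h) := by
  have h0 : 0 ≤ trace (qq h) := (qq_psd h).trace_nonneg
  refine (Real.le_sqrt (nm_pos h).le h0).1 ((nm_le_iff (Real.sqrt_nonneg _)).2 fun i k =>
    Real.abs_le_sqrt ?_)
  rw [trace_qq]
  exact (Finset.single_le_sum (f := fun i => h i k ^ 2) (fun _ _ => sq_nonneg _)
    (Finset.mem_univ i)).trans (Finset.single_le_sum (f := fun l => ∑ i, h i l ^ 2)
      (fun _ _ => by positivity) (Finset.mem_univ k))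

theorem trace_pos (h : G) : 0 < trace (qq h) := (pow_pos (nm_pos h) 2).trans_le (sq_nm_le h)

theorem wt_nonneg (i : Fin 3) (h : G) : 0 ≤ wt i (qq h) :=
  div_nonneg (qq_psd h).diag_nonneg (trace_pos h).le

theorem abs_wt_le (i : Fin 3) (h : G) : |wt i (qq h)| ≤ 1 := by
  rw [abs_of_nonneg (wt_nonneg i h), ← sum_wt (trace_pos h).ne']
  exact Finset.single_le_sum (fun k _ => wt_nonneg k h) (Finset.mem_univ i)

theorem qq_mul_tv {i k : Fin 3} (hik : i ≠ k) (b : ℝ) (h : G) :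
    qq (h * tv hik.symm b) = NoInv.cj (tv hik b) (qq h) := by
  have e : ((tv hik.symm b : G) : Matrix (Fin 3) (Fin 3) ℝ)ᵀ = (tv hik b : G) := by
    ext p q
    rw [transpose_apply, tv_apply, tv_apply]
    simp only [eq_comm (a := q), and_comm]
  rw [NoInv.cj, ← e, transpose_transpose, qq, qq, Matrix.SpecialLinearGroup.coe_mul, transpose_mul]
  simp only [Matrix.mul_assoc]

theorem minor_le (h : G) (p m i l : Fin 3) : |h p i * h m l - h m i * h p l| ≤ 6 * nm h⁻¹ := by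
  have h1 := abs_minor_le (ac h (ev i)) (ac h (ev l)) p m
  have h2 := norm_ac_le (dl h) (ev i ⨯₃ ev l)
  have h3 := norm_cross_le (ev i) (ev l)
  rw [norm_ev, norm_ev] at h3
  rw [nm_dl] at h2
  simp only [ac_ev, ac_cross] at h1
  nlinarith [nm_pos h⁻¹]

theorem minor_mul_le (g h : G) (k m i l : Fin 3) :
    |(g * h) k i * h m l - h m i * (g * h) k l| ≤ 18 * nm g * nm h⁻¹ := by
  have b : ∀ p, |g k p * (h p i * h m l - h m i * h p l)| ≤ nm g * (6 * nm h⁻¹) := fun p => by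
    rw [abs_mul]
    exact mul_le_mul (abs_le_nm _ _ _) (minor_le h p m i l) (abs_nonneg _) (nm_pos g).le
  have e : (g * h) k i * h m l - h m i * (g * h) k l =
      g k 0 * (h 0 i * h m l - h m i * h 0 l) + g k 1 * (h 1 i * h m l - h m i * h 1 l) +
        g k 2 * (h 2 i * h m l - h m i * h 2 l) := by
    rw [mul_entry, mul_entry]
    ring
  rw [e]
  linarith [abs_add_three (g k 0 * (h 0 i * h m l - h m i * h 0 l))
    (g k 1 * (h 1 i * h m l - h m i * h 1 l)) (g k 2 * (h 2 i * h m l - h m i * h 2 l)),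
    b 0, b 1, b 2]

theorem cross_mul_le (g h : G) (i : Fin 3) :
    |qq (g * h) i i * trace (qq h) - trace (qq (g * h)) * qq h i i| ≤
      27 * (2 * (nm (g * h) * nm h) * (18 * nm g * nm h⁻¹)) := by
  have e : qq (g * h) i i * trace (qq h) - trace (qq (g * h)) * qq h i i =
      ∑ p : Fin 3 × Fin 3 × Fin 3,
        (((g * h) p.1 i * h p.2.1 p.2.2) ^ 2 - (h p.2.1 i * (g * h) p.1 p.2.2) ^ 2) := by
    simp only [qq_diag, trace_qq, Fintype.sum_prod_type, Fin.sum_univ_three]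
    ring
  rw [e]
  refine (Finset.abs_sum_le_sum_abs _ _).trans ((Finset.sum_le_card_nsmul _ _
    (2 * (nm (g * h) * nm h) * (18 * nm g * nm h⁻¹)) fun p _ => ?_).trans_eq (by simp))
  have h1 := mul_le_mul (abs_le_nm (g * h) p.1 i) (abs_le_nm h p.2.1 p.2.2) (abs_nonneg _)
    (nm_pos _).le
  have h2 := mul_le_mul (abs_le_nm (g * h) p.1 p.2.2) (abs_le_nm h p.2.1 i) (abs_nonneg _)
    (nm_pos _).le
  rw [← abs_mul] at h1 h2
  rw [mul_comm] at h2
  rw [sq_sub_sq, abs_mul]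
  exact mul_le_mul ((abs_add_le _ _).trans (by linarith)) (minor_mul_le g h _ _ _ _)
    (abs_nonneg _) (by have := nm_pos h; have := nm_pos (g * h); positivity)

/-- left multiplication hardly moves the weights of a proximal element -/
theorem abs_wt_sub_le (g h : G) (i : Fin 3) :
    |wt i (qq (g * h)) - wt i (qq h)| ≤ 2916 * nm g * nm g⁻¹ * (nm h⁻¹ / nm h ^ 2) := by
  have p1 := nm_pos h
  have p2 := nm_pos (g * h)
  have p3 := nm_pos g
  have p4 := nm_pos g⁻¹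
  have p5 := nm_pos h⁻¹
  have h1 := nm_mul_le g⁻¹ (g * h)
  rw [inv_mul_cancel_left] at h1
  rw [wt, wt, div_sub_div _ _ (trace_pos _).ne' (trace_pos _).ne', abs_div,
    abs_of_pos (mul_pos (trace_pos _) (trace_pos _))]
  refine (div_le_div₀ (by positivity) (cross_mul_le g h i) (by positivity)
    (mul_le_mul (sq_nm_le (g * h)) (sq_nm_le h) (sq_nonneg _) (trace_pos _).le)).trans ?_
  rw [div_le_iff₀ (by positivity)]
  calc _ = 972 * nm g * nm h⁻¹ * nm (g * h) * nm h := by ring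
    _ ≤ 972 * nm g * nm h⁻¹ * nm (g * h) * (3 * nm g⁻¹ * nm (g * h)) := by gcongr
    _ = _ := by field_simp; ring

/-! ### the cutoff -/

/-- `log (2 nm μ)` -/
noncomputable def la (μ : Γ) : ℝ := Real.log (2 * nm (ι μ))

theorem la_pos (μ : Γ) : 0 < la μ := Real.log_pos (by linarith [one_le_nm μ])

theorem la_sub (μ : Γ) : 2 * la μ - la μ⁻¹ = Real.log (2 * (nm (ι μ) ^ 2 / nm (ι μ)⁻¹)) := by
  have h1 := nm_pos (ι μ)
  have h2 := nm_pos (ι μ)⁻¹
  have e : 2 * (nm (ι μ) ^ 2 / nm (ι μ)⁻¹) = (2 * nm (ι μ)) ^ 2 / (2 * nm (ι μ)⁻¹) := by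
    field_simp
  rw [e, Real.log_div (by positivity) (by positivity), Real.log_pow, la, la, map_inv]
  norm_num

theorem la_inv_le (μ : Γ) : la μ⁻¹ ≤ 2 * la μ := by
  rw [← sub_nonneg, la_sub]
  refine Real.log_nonneg ?_
  rw [← mul_div_assoc, le_div_iff₀ (nm_pos _), one_mul]
  exact nm_inv_le _

theorem la_dl (μ : Γ) : la (dl μ) = la μ⁻¹ := by rw [la, la, ι_dl, nm_dl, map_inv]

theorem tendsto_la : Tendsto (fun μ => la μ + la μ⁻¹) cofinite atTop :=
  tendsto_atTop.2 fun R => eventually_cofinite.2 <| (finite_nm_le (Real.exp R)).subset fun μ h => by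
    have h1 : la μ ≤ R := by linarith [not_le.1 h, la_pos μ⁻¹]
    have h2 := nm_pos (ι μ)
    have h3 := (Real.log_le_iff_le_exp (by positivity)).1 h1
    show nm (ι μ) ≤ _
    linarith

theorem tendsto_div (C : ℝ) : Tendsto (fun μ => C / (la μ + la μ⁻¹)) cofinite (𝓝 0) :=
  tendsto_const_nhds.div_atTop tendsto_la

theorem exists_la_le (ν : Γ) :
    ∃ D, ∀ μ, |la (ν * μ) - la μ| ≤ D ∧ |la (μ * ν) - la μ| ≤ D :=
  ⟨_, fun μ => by
    simp only [la, Real.log_mul two_ne_zero (nm_pos _).ne', add_sub_add_left_eq_sub, map_mul]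
    exact (abs_log_nm_mul_sub_le (ι μ) (ι ν)).symm⟩

/-- the cutoff -/
noncomputable def th (μ : Γ) : ℝ := (2 * la μ - la μ⁻¹) / (la μ + la μ⁻¹)

theorem th_nonneg (μ : Γ) : 0 ≤ th μ :=
  div_nonneg (sub_nonneg.2 (la_inv_le μ)) (add_pos (la_pos _) (la_pos _)).le

theorem th_add (μ : Γ) : th μ + th (dl μ) = 1 := by
  have := add_pos (la_pos μ) (la_pos μ⁻¹)
  rw [th, th, ← map_inv, la_dl, la_dl, inv_inv, add_comm (la μ⁻¹)]
  field_simp
  ring

theorem abs_th_le (μ : Γ) : |th μ| ≤ 1 := by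
  rw [abs_of_nonneg (th_nonneg μ)]
  linarith [th_add μ, th_nonneg (dl μ)]

theorem ratio_le {a c a' c' D : ℝ} (ha : 0 < a) (hc : 0 < c) (ha' : 0 < a') (hc' : 0 < c')
    (h1 : |a' - a| ≤ D) (h2 : |c' - c| ≤ D) :
    |(2 * a' - c') / (a' + c') - (2 * a - c) / (a + c)| ≤ 3 * D / (a + c) := by
  have e : (2 * a' - c') / (a' + c') - (2 * a - c) / (a + c) =
      3 * ((c' * (a' - a) - a' * (c' - c)) / (a' + c')) / (a + c) := by
    field_simp
    ring
  rw [e, abs_div, abs_of_pos (add_pos ha hc), abs_mul, abs_div, abs_of_pos (add_pos ha' hc'),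
    abs_of_pos (by norm_num : (0 : ℝ) < 3)]
  gcongr
  rw [div_le_iff₀ (add_pos ha' hc')]
  refine (abs_sub _ _).trans ?_
  rw [abs_mul, abs_mul, abs_of_pos ha', abs_of_pos hc']
  nlinarith

theorem th_slow {φ : Γ → Γ} {D D' : ℝ} (h1 : ∀ μ, |la (φ μ) - la μ| ≤ D)
    (h2 : ∀ μ, |la (φ μ)⁻¹ - la μ⁻¹| ≤ D') :
    Tendsto (fun μ => th (φ μ) - th μ) cofinite (𝓝 0) :=
  squeeze_zero_norm (fun μ => ratio_le (la_pos _) (la_pos _) (la_pos _) (la_pos _)
    ((h1 μ).trans (le_max_left D D')) ((h2 μ).trans (le_max_right D D'))) (tendsto_div _)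

theorem th_left (ν : Γ) : Tendsto (fun μ => th (ν * μ) - th μ) cofinite (𝓝 0) := by
  obtain ⟨D, hD⟩ := exists_la_le ν
  obtain ⟨D', hD'⟩ := exists_la_le ν⁻¹
  exact th_slow (fun μ => (hD μ).1) fun μ => by rw [_root_.mul_inv_rev]; exact (hD' μ⁻¹).2

theorem th_right (ν : Γ) : Tendsto (fun μ => th (μ * ν) - th μ) cofinite (𝓝 0) := by
  obtain ⟨D, hD⟩ := exists_la_le ν
  obtain ⟨D', hD'⟩ := exists_la_le ν⁻¹
  exact th_slow (fun μ => (hD μ).2) fun μ => by rw [_root_.mul_inv_rev]; exact (hD' μ⁻¹).1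

theorem th_mul_le (μ : Γ) : th μ * (nm (ι μ)⁻¹ / nm (ι μ) ^ 2) ≤ 2 / (la μ + la μ⁻¹) := by
  have h1 := nm_pos (ι μ)
  have h2 := nm_pos (ι μ)⁻¹
  have h3 := add_pos (la_pos μ) (la_pos μ⁻¹)
  rw [th, div_mul_eq_mul_div, la_sub]
  gcongr
  refine (mul_le_mul_of_nonneg_right (Real.log_le_self (by positivity))
    (by positivity)).trans_eq ?_
  field_simp

theorem tendsto_mul_wt {e : Γ → ℝ} (he : Tendsto e cofinite (𝓝 0)) (i : Fin 3) (φ : Γ → G) :
    Tendsto (fun μ => e μ * wt i (qq (φ μ))) cofinite (𝓝 0) :=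
  squeeze_zero_norm (a := fun μ => ‖e μ‖) (fun μ => by
    rw [norm_mul]
    exact mul_le_of_le_one_right (norm_nonneg _) (abs_wt_le i _)) (by simpa using he.norm)

/-- the three pieces of the cutoff -/
noncomputable def fi (i : Fin 3) (μ : Γ) : ℝ := th μ * wt i (qq (ι μ))

theorem fi_left (i : Fin 3) (ν : Γ) :
    Tendsto (fun μ => fi i (ν * μ) - fi i μ) cofinite (𝓝 0) := by
  have h1 := tendsto_mul_wt (th_left ν) i fun μ => ι (ν * μ)
  have h2 : Tendsto (fun μ => th μ * (wt i (qq (ι (ν * μ))) - wt i (qq (ι μ)))) cofinite (𝓝 0) :=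
    squeeze_zero_norm (fun μ => by
      have p1 := nm_pos (ι ν)
      have p2 := nm_pos (ι ν)⁻¹
      rw [norm_mul, Real.norm_of_nonneg (th_nonneg μ), map_mul, mul_div_assoc]
      refine (mul_le_mul_of_nonneg_left (abs_wt_sub_le _ _ i) (th_nonneg μ)).trans ?_
      rw [mul_left_comm]
      exact mul_le_mul_of_nonneg_left (th_mul_le μ) (by positivity))
      (tendsto_div (2916 * nm (ι ν) * nm (ι ν)⁻¹ * 2))
  simpa only [add_zero] using (h1.add h2).congr fun μ => by simp only [fi]; ring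

/-! ### means -/

theorem rb_add {f g : Γ → ℝ} (hf : RB f) (hg : RB g) : RB fun μ => f μ + g μ :=
  hf.elim fun C h => hg.elim fun C' h' =>
    ⟨C + C', fun μ => (abs_add_le _ _).trans (add_le_add (h μ) (h' μ))⟩

theorem rb_sub {f g : Γ → ℝ} (hf : RB f) (hg : RB g) : RB fun μ => f μ - g μ :=
  hf.elim fun C h => hg.elim fun C' h' =>
    ⟨C + C', fun μ => (abs_sub _ _).trans (add_le_add (h μ) (h' μ))⟩

theorem rb_comp {f : Γ → ℝ} (hf : RB f) (φ : Γ → Γ) : RB fun μ => f (φ μ) :=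
  hf.imp fun _ h _ => h _

theorem rb_th : RB th := ⟨1, abs_th_le⟩

theorem rb_th_wt (i : Fin 3) (φ : Γ → G) : RB fun μ => th μ * wt i (qq (φ μ)) :=
  ⟨1, fun μ => by
    rw [abs_mul]
    exact mul_le_one₀ (abs_th_le μ) (abs_nonneg _) (abs_wt_le i _)⟩

theorem rb_fi (i : Fin 3) : RB (fi i) := rb_th_wt i ι

/-- the hypotheses of `NoMeanStmt` -/
structure Mn (m : (Γ → ℝ) → ℝ) : Prop where
  add : ∀ f g, RB f → RB g → m (fun μ => f μ + g μ) = m f + m g
  smul : ∀ (c : ℝ) f, RB f → m (fun μ => c * f μ) = c * m f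
  pos : ∀ f, RB f → (∀ μ, 0 ≤ f μ) → 0 ≤ m f
  zero : ∀ f, Tendsto f cofinite (𝓝 0) → m f = 0
  inv : ∀ f, RB f → (∀ ν, Tendsto (fun μ => f (ν * μ) - f μ) cofinite (𝓝 0)) →
    ∀ ν, m (fun μ => f (μ * ν)) = m f

namespace Mn
variable {m : (Γ → ℝ) → ℝ} (H : Mn m) {f g : Γ → ℝ}
include H

theorem eq_add (hf : RB f) (hg : RB g) : m f = m g + m fun μ => f μ - g μ := by
  rw [← H.add _ _ hg (rb_sub hf hg)]
  simp only [add_sub_cancel]

theorem dual : Mn fun f => m fun μ => f (dl μ) := by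
  have hd : Tendsto (dl : Γ → Γ) cofinite cofinite :=
    (Function.LeftInverse.injective dl_dl).tendsto_cofinite
  refine ⟨fun f g hf hg => H.add _ _ (rb_comp hf _) (rb_comp hg _),
    fun c f hf => H.smul _ _ (rb_comp hf _), fun f hf h => H.pos _ (rb_comp hf _) fun _ => h _,
    fun f h => H.zero _ (h.comp hd), fun f hf h ν => ?_⟩
  have := H.inv (fun μ => f (dl μ)) (rb_comp hf _)
    (fun ν => by simpa only [map_mul, Function.comp_def] using (h (dl ν)).comp hd) (dl ν)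
  simpa only [map_mul, dl_dl] using this

theorem fi_eq (i : Fin 3) (ν : Γ) : m (fi i) = m fun μ => th μ * wt i (qq (ι (μ * ν))) := by
  rw [← H.inv _ (rb_fi i) (fi_left i) ν, H.eq_add (rb_comp (rb_fi i) _)
    (rb_th_wt i fun μ => ι (μ * ν)), H.zero (fun μ => _ - _), add_zero]
  exact (tendsto_mul_wt (th_right ν) i fun μ => ι (μ * ν)).congr fun μ => by simp only [fi]; ring

theorem fi_le (i : Fin 3) : 4 * m (fi i) ≤ 13 / 10 * m th := by
  set u : Fin 4 → Γ → ℝ := fun k μ =>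
    th μ * wt i (qq (ι (μ * tz (succ_ne i).symm (6 * (k : ℕ))))) with hu
  have r : ∀ k, RB (u k) := fun k => rb_th_wt i _
  have e : ∀ k, m (u k) = m (fi i) := fun k => (H.fi_eq i _).symm
  have r4 := rb_add (rb_add (rb_add (r 0) (r 1)) (r 2)) (r 3)
  have r13 : RB fun μ => 13 / 10 * th μ := ⟨13 / 10, fun μ => by
    rw [abs_mul, abs_of_pos (by norm_num : (0 : ℝ) < 13 / 10)]
    exact mul_le_of_le_one_right (by norm_num) (abs_th_le μ)⟩
  have h1 := H.eq_add r13 r4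
  have h2 := H.pos _ (rb_sub r13 r4) fun μ => by
    have h := mul_le_mul_of_nonneg_left (sum_wt_cj_le (qq_psd (ι μ)) i) (th_nonneg μ)
    simp only [← qq_mul_tv, Fin.sum_univ_four] at h
    simp only [hu, map_mul, ι_tz, Int.cast_mul, Int.cast_ofNat, Int.cast_natCast]
    linarith
  rw [H.smul _ _ rb_th, H.add _ _ (rb_add (rb_add (r 0) (r 1)) (r 2)) (r 3),
    H.add _ _ (rb_add (r 0) (r 1)) (r 2), H.add _ _ (r 0) (r 1), e, e, e, e] at h1
  linarith

theorem th_eq : m th = 0 := by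
  have h1 := H.add _ _ (rb_add (rb_fi 0) (rb_fi 1)) (rb_fi 2)
  have h2 : (fun μ => fi 0 μ + fi 1 μ + fi 2 μ) = th := funext fun μ => by
    have := sum_wt (trace_pos (ι μ)).ne'
    rw [Fin.sum_univ_three] at this
    simp only [fi, ← mul_add, this, mul_one]
  rw [h2, H.add _ _ (rb_fi 0) (rb_fi 1)] at h1
  linarith [H.fi_le 0, H.fi_le 1, H.fi_le 2, H.pos _ rb_th th_nonneg]

end Mn

end NM

theorem noMean : NoMeanStmt := fun m h1 h2 h3 h4 h5 => by
  have H : NM.Mn m := ⟨h1, h2, h3, h4, h5⟩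
  have h := H.add _ _ NM.rb_th (NM.rb_comp NM.rb_th dl)
  simp only [NM.th_add] at h
  rw [h, H.th_eq, H.dual.th_eq, add_zero]

end Crest.Agent.N111.Cn
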