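import Crest.Agent.N111.C.Defs
import Crest.Agent.N111.B.Set
import Crest.Agent.N111.Lib.Geo

/-!
# Row 111, module C: transport of a setting to `ℓ²(Σ)` and reduction of `ConcStmt` to `CoreStmt`.
-/

set_option autoImplicit false

namespace Crest.Agent.N111.Cn

open MeasureTheory Topology Filter ContinuousLinearMap
open scoped InnerProductSpace ComplexConjugate
open Crest.OperatorAlgebra

namespace Tr

section J
variable {κ H : Type} [Fintype κ] [DecidableEq κ] [NormedAddCommGroup H] [InnerProductSpace ℂ H]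
  [CompleteSpace H] (S : Setting κ H)

theorem pars' (η : H) : HasSum (fun g : κ → Γ => ‖⟪S.R g⁻¹ S.ξ, η⟫_ℂ‖ ^ 2) (‖η‖ ^ 2) :=
  (Equiv.inv (κ → Γ)).hasSum_iff.2 (S.pars η)

theorem exists_J : ∃ J : H →L[ℂ] Ell2 (κ → Γ), ∀ η g, J η g = ⟪S.R g⁻¹ S.ξ, η⟫_ℂ := by
  refine B.exists_rows (fun g : κ → Γ => innerSL ℂ (S.R g⁻¹ S.ξ)) (C := 1) fun η F => ?_
  simpa using sum_le_hasSum F (fun _ _ => sq_nonneg _) (pars' S η)

/-- the analysis operator of the frame -/
noncomputable def J : H →L[ℂ] Ell2 (κ → Γ) := (exists_J S).choose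

theorem J_apply (η : H) (g : κ → Γ) : J S η g = ⟪S.R g⁻¹ S.ξ, η⟫_ℂ := (exists_J S).choose_spec η g

theorem norm_J (η : H) : ‖J S η‖ = ‖η‖ := by
  have h := hasSum_normSq (J S η)
  simp only [J_apply] at h
  exact (sq_eq_sq₀ (norm_nonneg _) (norm_nonneg _)).1 (h.unique (pars' S η))

theorem adj_J (η : H) : adjoint (J S) (J S η) = η :=
  ext_inner_left ℂ fun v => by
    rw [adjoint_inner_right]
    exact LinearIsometry.inner_map_map
      (⟨(J S : H →ₗ[ℂ] Ell2 (κ → Γ)), norm_J S⟩ : H →ₗᵢ[ℂ] Ell2 (κ → Γ)) v η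

theorem J_R (h : κ → Γ) (η : H) : J S (S.R h η) = rho (κ → Γ) h (J S η) :=
  l2_ext fun g => by rw [rho_apply, J_apply, J_apply, S.R.inner_right, ← S.R.mul_apply, mul_inv_rev]

theorem adj_rho (h : κ → Γ) (ζ : Ell2 (κ → Γ)) :
    adjoint (J S) (rho (κ → Γ) h ζ) = S.R h (adjoint (J S) ζ) :=
  ext_inner_left ℂ fun v => by
    rw [adjoint_inner_right, URep.inner_right, ← J_R, S.R.inner_right, adjoint_inner_right]

theorem adj_dt : adjoint (J S) (dt 1) = S.ξ :=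
  ext_inner_right ℂ fun v => by rw [adjoint_inner_left, inner_dt, J_apply]; simp

/-- the transported unitaries -/
noncomputable def w (γ : Γ) : Op (κ → Γ) := J S ∘L S.π γ ∘L adjoint (J S)

theorem w_apply (γ : Γ) (ζ : Ell2 (κ → Γ)) : w S γ ζ = J S (S.π γ (adjoint (J S) ζ)) := rfl

theorem w_dt (γ : Γ) : w S γ (dt 1) = J S (S.π γ S.ξ) := by rw [w_apply, adj_dt]

/-- compression -/
noncomputable def cp : Op (κ → Γ) →ₗ[ℂ] (H →L[ℂ] H) where
  toFun T := adjoint (J S) ∘L T ∘L J S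
  map_add' _ _ := by ext; simp
  map_smul' _ _ := by ext; simp

theorem cp_apply (T : Op (κ → Γ)) (η : H) : cp S T η = adjoint (J S) (T (J S η)) := rfl

theorem cp_π {T : Op (κ → Γ)} {γ : Γ} (h : Commute T (w S γ)) : Commute (cp S T) (S.π γ) := by
  ext η
  have := congrArg (fun A : Op (κ → Γ) => adjoint (J S) (A (J S η))) h.eq
  simpa only [mul_apply_eq_comp, w_apply, adj_J, cp_apply] using this

theorem cp_R {T : Op (κ → Γ)} {g : κ → Γ} (h : Commute T (rho (κ → Γ) g)) :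
    Commute (cp S T) (S.R g) := by
  ext η
  have := congrArg (fun A : Op (κ → Γ) => adjoint (J S) (A (J S η))) h.eq
  simpa only [mul_apply_eq_comp, adj_rho, J_R, cp_apply] using this

theorem w_mem (γ : Γ) : w S γ ∈ LA (κ → Γ) := URep.mem_comm.2 fun g => by
  ext1 ζ
  have := congrArg (fun A : H →L[ℂ] H => J S (A (adjoint (J S) ζ))) (S.comm γ g).eq
  simpa only [mul_apply_eq_comp, w_apply, adj_rho, J_R] using this.symm

/-- the transported setting -/
noncomputable def lset : LSet κ where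
  w := w S
  mem := w_mem S
  mul γ γ' := by ext1 ζ; simp only [mul_apply_eq_comp, w_apply, adj_J, URep.mul_apply]
  star γ := by
    rw [star_eq_adjoint, w, adjoint_comp, adjoint_comp, adjoint_adjoint, ← star_eq_adjoint,
      URep.star_apply]
    rfl
  ne := by
    rw [w_dt, ← norm_ne_zero_iff, norm_J, URep.norm_map, norm_ne_zero_iff]
    exact S.ξ_ne
  erg Z hZ h := by
    obtain ⟨L, hL⟩ := S.erg
    have hT : cp S Z ∈ Set.centralizer (Set.range S.R) := by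
      rintro _ ⟨g, rfl⟩
      exact (cp_R S (URep.mem_comm.1 hZ g).symm).eq.symm
    obtain ⟨c, hc⟩ := hL.erg (cp S Z S.ξ) fun γ => by
      have e1 := congrArg (fun A : H →L[ℂ] H => A S.ξ) (cp_π S (h γ)).eq
      have e2 := congrArg (fun A : H →L[ℂ] H => A (S.π γ S.ξ)) (hL.L_mem γ _ hT)
      simp only [mul_apply_eq_comp] at e1 e2
      rw [← e1, ← e2, hL.L_Ω]
    refine ⟨c, LA_ext (mul_mem (w_mem S 1) hZ) (SMulMemClass.smul_mem _ (w_mem S 1)) ?_⟩
    have e := congrArg (fun A : Op (κ → Γ) => J S (adjoint (J S) (A (dt 1)))) (h 1).eq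
    simp only [mul_apply_eq_comp, w_apply, adj_J, adj_dt, map_one, one_apply_eq_self] at e
    simp only [mul_apply_eq_comp, w_apply, adj_dt, map_one, one_apply_eq_self, smul_apply]
    rw [← e, ← cp_apply, hc, map_smul]
  tr i := by
    obtain ⟨ω, h1, h2, h3⟩ := S.tr i
    refine ⟨ω ∘ₗ cp S, ?_, fun T => ?_, fun T hT => h2 _ ?_, fun T hw hr ν => ?_⟩
    · rw [LinearMap.comp_apply, ← h1]
      congr 1
      ext η
      simp only [cp_apply, w_apply, adj_J, map_one, one_apply_eq_self]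
    · simp only [LinearMap.comp_apply]
      congr 1
      ext η
      simp only [cp_apply, mul_apply_eq_comp, w_apply, adj_J, map_one, one_apply_eq_self]
    · exact (nonneg_iff_isPositive _).2 (((nonneg_iff_isPositive _).1 hT).adjoint_conj (J S))
    · simp only [LinearMap.comp_apply]
      rw [← h3 (cp S T) (fun γ => cp_π S (hw γ)) (fun g hg => cp_R S (hr g hg)) ν]
      congr 1
      ext η
      simp only [cp_apply, mul_apply_eq_comp, adj_rho, J_R]

end J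

section Mul
variable {K : Type}

theorem hasSum_inner_mulOp {Φ : K → ℂ} (h : Bdd Φ) (y : Ell2 K) :
    HasSum (fun g => (‖y g‖ ^ 2 : ℝ) • Φ g) ⟪y, mulOp Φ y⟫_ℂ := by
  refine (hasSum_inner y (mulOp Φ y)).congr_fun fun g => ?_
  rw [h.mulOp_apply, mul_left_comm, Complex.conj_mul', Complex.real_smul, mul_comm]
  push_cast
  rfl

theorem bdd_real {f : K → ℝ} {C : ℝ} (h : ∀ g, |f g| ≤ C) : Bdd fun g => (f g : ℂ) :=
  ⟨C, fun g => by simpa using h g⟩

theorem hasSum_re_mulOp {f : K → ℝ} {C : ℝ} (h : ∀ g, |f g| ≤ C) (y : Ell2 K) :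
    HasSum (fun g => (‖y g‖ ^ 2 : ℝ) • f g) (⟪y, mulOp (fun g => (f g : ℂ)) y⟫_ℂ).re := by
  refine (Complex.hasSum_re (hasSum_inner_mulOp (bdd_real h) y)).congr_fun fun g => ?_
  rw [Complex.smul_re, Complex.ofReal_re]

theorem hasSum_norm_mulOp {Φ : K → ℂ} (h : Bdd Φ) (y : Ell2 K) :
    HasSum (fun g => (‖y g‖ ^ 2 : ℝ) • ‖Φ g‖ ^ 2) (‖mulOp Φ y‖ ^ 2) := by
  refine (hasSum_normSq (mulOp Φ y)).congr_fun fun g => ?_
  rw [h.mulOp_apply, norm_mul, mul_pow, smul_eq_mul, mul_comm]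

end Mul

theorem summable_mul {K : Type} {p f : K → ℝ} {C : ℝ} (hp : Summable p) (h0 : ∀ g, 0 ≤ p g)
    (h : ∀ g, |f g| ≤ C) : Summable fun g => p g * f g :=
  (hp.mul_right C).of_norm_bounded fun g => by
    rw [Real.norm_eq_abs, abs_mul, abs_of_nonneg (h0 g)]
    exact mul_le_mul_of_nonneg_left (h g) (h0 g)

theorem hasSum_pos {κ H : Type} [Fintype κ] [DecidableEq κ] [NormedAddCommGroup H]
    [InnerProductSpace ℂ H] [CompleteSpace H] {S : Setting κ H} {i : κ} {j₀ : H →L[ℂ] H}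
    (hj : S.IsJ i j₀) {F : Γ → ℝ} {C : ℝ} (hF : ∀ ν, |F ν| ≤ C) (v : H) :
    HasSum (fun ν => F ν * ‖j₀ (S.R (B.ms i ν⁻¹) v)‖ ^ 2)
      (⟪J S v, mulOp (fun g => (F (g i)⁻¹ : ℂ)) (J S v)⟫_ℂ).re := by
  have h := hasSum_re_mulOp (f := fun g : κ → Γ => F (g i)⁻¹) (fun g => hF _) (J S v)
  rw [← (Equiv.inv (κ → Γ)).hasSum_iff, ← (B.split i).hasSum_iff] at h
  refine h.prod_fiberwise fun ν => ?_
  have := (hj.2 (S.R (B.ms i ν⁻¹) v)).mul_left (F ν)
  simp only [B.ms_inv, ← URep.inner_left, ← URep.mul_apply] at this ⊢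
  refine this.congr_fun fun g => ?_
  simp [J_apply, B.split, g.2, mul_comm]

end Tr

open Tr

theorem trans : TransStmt := by
  intro κ H _ _ _ _ _ S
  refine ⟨lset S, (congrArg norm (w_dt S 1)).trans (by rw [norm_J, URep.norm_map]),
    fun i j₀ I hI => ⟨by rw [hI.ξ, norm_cst], fun k F ⟨C, hF⟩ => ?_⟩⟩
  have hae : ∀ ν, ∀ᵐ x ∂μ, I.j (I.ρ ν⁻¹ (I.U (al k) I.ξ)) x =
      j₀ (S.R (B.ms i ν⁻¹) (S.π (coc (al k)⁻¹ x)⁻¹ S.ξ)) := fun ν => by
    rw [hI.j, hI.ρ, hI.U, hI.ξ]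
    filter_upwards [amp_coeFn j₀ (amp (S.R (B.ms i ν⁻¹)) (ind S.π (al k) (cst H S.ξ))),
      amp_coeFn (S.R (B.ms i ν⁻¹)) (ind S.π (al k) (cst H S.ξ)),
      ind_cst_coeFn S.π (al k) S.ξ] with x h1 h2 h3
    rw [h1, h2, h3]
  have hall := ae_all_iff.2 hae
  refine HasSum.tsum_eq ?_
  simp only [norm_sq_eq_integral, ← integral_const_mul]
  refine hasSum_integral_of_dominated_convergence
    (fun ν x => C * ‖I.j (I.ρ ν⁻¹ (I.U (al k) I.ξ)) x‖ ^ 2)
    (fun ν => ((integrable_norm_sq _).const_mul _).aestronglyMeasurable)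
    (fun ν => .of_forall fun x => ?_) (hall.mono fun x hx => ?_)
    ((integrable_const (C * ‖S.ξ‖ ^ 2)).congr (hall.mono fun x hx => ?_)) (hall.mono fun x hx => ?_)
  · rw [Real.norm_eq_abs, abs_mul, abs_sq]
    exact mul_le_mul_of_nonneg_right (hF ν) (sq_nonneg _)
  · simp only [hx]
    exact (B.J_pars hI.hj _).summable.mul_left C
  · simp only [hx]
    rw [((B.J_pars hI.hj _).mul_left C).tsum_eq, URep.norm_map]
  · simp only [hx]
    have := hasSum_pos hI.hj hF (S.π (coc (al k)⁻¹ x)⁻¹ S.ξ)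
    rwa [← w_dt] at this

namespace Tr

theorem norm_w {κ : Type} [Fintype κ] [DecidableEq κ] (L : LSet κ) (γ : Γ) :
    ‖L.w γ (dt 1)‖ ^ 2 = ‖L.w 1 (dt 1)‖ ^ 2 := by
  have h : ∀ γ, ((‖L.w γ (dt 1)‖ ^ 2 : ℝ) : ℂ) = tau (L.w 1) := fun γ => by
    rw [← tau_star_mul_self, L.star, ← L.mul, inv_mul_cancel]
  exact_mod_cast (h γ).trans (h 1).symm

/-- integration of weighted sums over a countable family of vectors -/
theorem hasSum_int {K E : Type} [Countable K] [NormedAddCommGroup E] [NormedSpace ℝ E]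
    [CompleteSpace E] {c : X → Γ} (hc : Measurable c) {y : Γ → Ell2 K} {T : ℝ}
    (hy : ∀ γ, ‖y γ‖ ^ 2 = T) {φ : K → E} {C : ℝ} (hφ : ∀ g, ‖φ g‖ ≤ C) {Ψ : X → E}
    (h : ∀ x, HasSum (fun g => (‖y (c x) g‖ ^ 2 : ℝ) • φ g) (Ψ x)) :
    HasSum (fun g => (∫ x, ‖y (c x) g‖ ^ 2 ∂μ) • φ g) (∫ x, Ψ x ∂μ) := by
  simp only [← integral_smul_const]
  refine hasSum_integral_of_dominated_convergence (fun g x => ‖y (c x) g‖ ^ 2 * C)
    (fun g => (((measurable_of_countable fun γ => ‖y γ g‖ ^ 2).comp hc).aestronglyMeasurable).smul_const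
      _) (fun g => .of_forall fun x => ?_)
    (.of_forall fun x => (hasSum_normSq _).summable.mul_right C)
    ((integrable_const (T * C)).congr (.of_forall fun x => ?_)) (.of_forall h)
  · rw [norm_smul, Real.norm_of_nonneg (sq_nonneg _)]
    exact mul_le_mul_of_nonneg_left (hφ g) (sq_nonneg _)
  · simp only
    rw [((hasSum_normSq _).mul_right C).tsum_eq, hy]

/-- the variance is the minimal mean square deviation -/
theorem var_le {K : Type} {p f : K → ℝ} {T A1 A2 : ℝ} (hT : 0 < T) (h0 : ∀ g, 0 ≤ p g)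
    (hp : HasSum p T) (h1 : HasSum (fun g => p g * f g) A1)
    (h2 : HasSum (fun g => p g * f g ^ 2) A2) :
    0 ≤ T * A2 - A1 ^ 2 ∧ ∀ m B, HasSum (fun g => p g * (f g - m) ^ 2) B →
      T * A2 - A1 ^ 2 ≤ T * B := by
  have key : ∀ m, HasSum (fun g => p g * (f g - m) ^ 2) (A2 - 2 * m * A1 + m ^ 2 * T) := fun m =>
    ((h2.sub (h1.mul_left (2 * m))).add (hp.mul_left (m ^ 2))).congr_fun fun g => by ring
  refine ⟨?_, fun m B hB => ?_⟩
  · have h := (key (A1 / T)).nonneg fun g => mul_nonneg (h0 g) (sq_nonneg _)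
    have e : T * (A2 - 2 * (A1 / T) * A1 + (A1 / T) ^ 2 * T) = T * A2 - A1 ^ 2 := by
      field_simp; ring
    rw [← e]; positivity
  · rw [hB.unique (key m)]
    nlinarith [sq_nonneg (A1 - m * T)]

/-- a proper length function on `Σ` -/
noncomputable def len {κ : Type} [Fintype κ] (g : κ → Γ) : ℝ := ∑ j, Real.log (nm (ι (g j)))

theorem finite_len {κ : Type} [Fintype κ] (R : ℝ) : {g : κ → Γ | len g ≤ R}.Finite := by
  refine (Set.Finite.pi' fun _ : κ => finite_nm_le (Real.exp R)).subset fun g hg j => ?_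
  refine (Real.log_le_iff_le_exp (nm_pos _)).1 (le_trans ?_ hg)
  exact Finset.single_le_sum (f := fun j => Real.log (nm (ι (g j))))
    (fun j _ => Real.log_nonneg (one_le_nm _)) (Finset.mem_univ j)

theorem exists_len {κ : Type} [Fintype κ] (s : κ → Γ) :
    ∃ c, ∀ g, |len (s * g) - len g| ≤ c ∧ |len (g * s) - len g| ≤ c := by
  refine ⟨∑ j, Real.log (3 * max (nm (ι (s j))) (nm (ι (s j))⁻¹)), fun g => ?_⟩
  simp only [len, ← Finset.sum_sub_distrib, Pi.mul_apply, map_mul]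
  exact ⟨(Finset.abs_sum_le_sum_abs _ _).trans (Finset.sum_le_sum fun j _ =>
    (abs_log_nm_mul_sub_le _ _).2), (Finset.abs_sum_le_sum_abs _ _).trans
      (Finset.sum_le_sum fun j _ => (abs_log_nm_mul_sub_le _ _).1)⟩

theorem abs_clamp (a b : ℝ) : |max 0 (min 1 a) - max 0 (min 1 b)| ≤ |a - b| := by
  refine (abs_max_sub_max_le_max _ _ _ _).trans (max_le (by simp) ?_)
  exact (abs_min_sub_min_le_max _ _ _ _).trans (max_le (by simp) le_rfl)

/-- slowly varying finitely supported cutoffs carrying almost all the mass -/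
theorem exists_cut {κ : Type} [Fintype κ] {p : ℕ → (κ → Γ) → ℝ} {T : ℝ} (h0 : ∀ n g, 0 ≤ p n g)
    (hp : ∀ n, HasSum (p n) T) : ∃ χ : ℕ → (κ → Γ) → ℝ, (∀ n g, χ n g ∈ Set.Icc (0 : ℝ) 1) ∧
      (∀ n, {g | χ n g ≠ 0}.Finite) ∧ (∀ s, ∀ ε > 0, ∀ᶠ n in atTop, ∀ g,
        |χ n (s * g) - χ n g| ≤ ε ∧ |χ n (g * s) - χ n g| ≤ ε) ∧
      ∀ n, T - ∑' g, p n g * χ n g ≤ 1 / ((n : ℝ) + 1) := by
  have h1 : ∀ n : ℕ, ∃ R, ∀ χ : (κ → Γ) → ℝ, (∀ g, χ g ∈ Set.Icc (0 : ℝ) 1) →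
      (∀ g, len g ≤ R → χ g = 1) → T - ∑' g, p n g * χ g ≤ 1 / ((n : ℝ) + 1) := fun n => by
    obtain ⟨A, hA⟩ := ((tendsto_order.1 (hp n)).1 (T - 1 / ((n : ℝ) + 1))
      (by linarith [Nat.one_div_pos_of_nat (α := ℝ) (n := n)])).exists
    obtain ⟨R, hR⟩ := (A.finite_toSet.image len).bddAbove
    refine ⟨R, fun χ hχ h => ?_⟩
    have := (summable_mul (hp n).summable (h0 n) (C := 1) fun g =>
      abs_le.2 ⟨by linarith [(hχ g).1], (hχ g).2⟩).sum_le_tsum A
      fun g _ => mul_nonneg (h0 n g) (hχ g).1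
    rw [Finset.sum_congr rfl fun g hg => by rw [h g (hR ⟨g, hg, rfl⟩), mul_one]] at this
    linarith
  choose R hR using h1
  have hI : ∀ a : ℝ, max 0 (min 1 a) ∈ Set.Icc (0 : ℝ) 1 := fun a =>
    ⟨le_max_left _ _, max_le zero_le_one (min_le_left _ _)⟩
  refine ⟨fun n g => max 0 (min 1 ((R n + (n + 1) - len g) / (n + 1))), fun n g => hI _,
    fun n => (finite_len (R n + (n + 1))).subset fun g hg => ?_, fun s ε hε => ?_,
    fun n => hR n _ (fun g => hI _) fun g hg => ?_⟩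
  · by_contra hc
    refine hg (max_eq_left (min_le_of_right_le (div_nonpos_of_nonpos_of_nonneg ?_ (by positivity))))
    replace hc : R n + (n + 1) < len g := not_le.1 hc
    linarith
  · obtain ⟨c, hc⟩ := exists_len s
    filter_upwards [tendsto_natCast_atTop_atTop.eventually_ge_atTop (c / ε)] with n hn g
    have key : ∀ g' : κ → Γ, |len g' - len g| ≤ c → |max 0 (min 1 ((R n + (n + 1) - len g') / (n + 1))) -
        max 0 (min 1 ((R n + (n + 1) - len g) / (n + 1)))| ≤ ε := fun g' h => by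
      refine (abs_clamp _ _).trans ?_
      rw [← sub_div, abs_div, sub_sub_sub_cancel_left, abs_sub_comm,
        abs_of_pos (by positivity : (0 : ℝ) < n + 1), div_le_iff₀ (by positivity)]
      rw [div_le_iff₀ hε] at hn
      nlinarith
    exact ⟨key _ (hc g).1, key _ (hc g).2⟩
  · have : 1 ≤ (R n + (n + 1) - len g) / (n + 1) := (le_div_iff₀ (by positivity)).2 (by linarith)
    simp only [min_eq_left this, max_eq_right zero_le_one]

theorem commH_al (s : ℝ) : CommH (al s)⁻¹ := fun b => by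
  have key : ∀ {i j : Fin 3} (h : i ≠ j), dgl (-2 * s) s i = dgl (-2 * s) s j →
      Commute (al s)⁻¹ (tv h b) := fun h e => by
    refine Commute.inv_left (mul_inv_eq_iff_eq_mul.1 ?_)
    rw [al, dg_conj_tv, e, sub_self, Real.exp_zero, one_mul]
  exact ⟨key _ (by simp [dgl]; ring), key _ (by simp [dgl]; ring)⟩

end Tr

theorem conc_of (hC : CoreStmt) (hT : TransStmt) : ConcStmt := by
  intro κ H _ _ _ _ _ S i j₀ I hI k F hF hs
  obtain ⟨L, hL, hL'⟩ := hT κ H S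
  obtain ⟨hξ, hms⟩ := hL' i j₀ I hI
  set T := ‖L.w 1 (dt 1)‖ ^ 2 with hTdef
  have hT0 : 0 < T := pow_pos (norm_pos_iff.2 L.ne) 2
  have hc : ∀ n, Measurable fun x => (coc (al (k n))⁻¹ x)⁻¹ := fun n =>
    (measurable_coc measurable_const measurable_id).inv
  set p : ℕ → (κ → Γ) → ℝ := fun n g => ∫ x, ‖L.w (coc (al (k n))⁻¹ x)⁻¹ (dt 1) g‖ ^ 2 ∂μ
  have h0 : ∀ n g, 0 ≤ p n g := fun n g => integral_nonneg fun x => sq_nonneg _
  have hp : ∀ n, HasSum (p n) T := fun n => by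
    simpa using hasSum_int (hc n) (norm_w L) (φ := fun _ => (1 : ℝ)) (C := 1) (by simp)
      (Ψ := fun _ => T) fun x => by
        simpa only [smul_eq_mul, mul_one, norm_w L] using hasSum_normSq (L.w _ (dt 1))
  have hm : ∀ n (F : Γ → ℝ), (∀ ν, |F ν| ≤ 1) →
      HasSum (fun g => p n g * F (g i)⁻¹) (I.ms (k n) F) := fun n F hF => by
    rw [hms _ _ ⟨1, hF⟩]
    exact hasSum_int (hc n) (norm_w L) (φ := fun g => F (g i)⁻¹) (fun g => hF _)
      fun x => hasSum_re_mulOp (fun g => hF _) _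
  obtain ⟨χ, hχ, hfin, hsl, hmass⟩ := exists_cut h0 hp
  have ab : ∀ {t : ℝ}, t ∈ Set.Icc (0 : ℝ) 1 → |t| ≤ 1 := fun h => abs_le.2 ⟨by linarith [h.1], h.2⟩
  have hfχ : ∀ n g, F n (g i)⁻¹ * χ n g ∈ Set.Icc (0 : ℝ) 1 := fun n g =>
    ⟨mul_nonneg (hF n _).1 (hχ n g).1, mul_le_one₀ (hF n _).2 (hχ n g).1 (hχ n g).2⟩
  have sm : ∀ n {f : (κ → Γ) → ℝ}, (∀ g, |f g| ≤ 1) → Summable fun g => p n g * f g :=
    fun n _ h => summable_mul (hp n).summable (h0 n) h
  set m : ℕ → ℝ := fun n => (∑' g, p n g * (F n (g i)⁻¹ * χ n g)) / T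
  have hm1 : ∀ n, m n ∈ Set.Icc (0 : ℝ) 1 := fun n =>
    ⟨div_nonneg (tsum_nonneg fun g => mul_nonneg (h0 n g) (hfχ n g).1) hT0.le,
      (div_le_one hT0).2 (hasSum_le (fun g => mul_le_of_le_one_right (h0 n g) (hfχ n g).2)
        (sm n fun g => ab (hfχ n g)).hasSum (hp n))⟩
  set Φ : ℕ → (κ → Γ) → ℝ := fun n g => F n (g i)⁻¹ * χ n g - m n
  have hΦ : ∀ n g, |Φ n g| ≤ 1 := fun n g =>
    abs_le.2 ⟨by linarith [(hfχ n g).1, (hm1 n).2], by linarith [(hfχ n g).2, (hm1 n).1]⟩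
  have hΦ' : ∀ n g, ‖(Φ n g : ℂ)‖ ≤ 1 := fun n g => by simpa using hΦ n g
  have core := hC κ L (fun n => (al (k n))⁻¹) (fun n g => Φ n g) (fun n => commH_al _) hΦ'
    (fun s ε hε => ?_) (fun n => ⟨(-m n : ℝ), (hfin n).subset fun g hg h => hg ?_⟩) fun n => ?_
  · have h2 : ∀ n, HasSum (fun g => p n g * Φ n g ^ 2) (∫ x, ‖mulOp (fun g => (Φ n g : ℂ))
        (L.w (coc (al (k n))⁻¹ x)⁻¹ (dt 1))‖ ^ 2 ∂μ) := fun n => by
      simpa using hasSum_int (hc n) (norm_w L) (φ := fun g => ‖(Φ n g : ℂ)‖ ^ 2) (C := 1)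
        (fun g => by simpa using hΦ n g) fun x => hasSum_norm_mulOp ⟨1, hΦ' n⟩ _
    have hv := fun n => var_le hT0 (h0 n) (hp n) (hm n (F n) fun ν => ab (hF n ν))
      (hm n (fun ν => F n ν ^ 2) fun ν => by simpa using ab (hF n ν))
    rw [hξ, ← hL]
    refine squeeze_zero (fun n => (hv n).1) (fun n => ?_) (by simpa using
      (((core.const_mul 2).add (tendsto_one_div_add_atTop_nhds_zero_nat.const_mul 2)).const_mul T))
    have s1 := (sm n (f := fun g => (F n (g i)⁻¹ - m n) ^ 2) fun g => by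
      simpa using abs_le.2 ⟨by linarith [(hF n (g i)⁻¹).1, (hm1 n).2],
        by linarith [(hF n (g i)⁻¹).2, (hm1 n).1]⟩).hasSum
    refine ((hv n).2 _ _ s1).trans (mul_le_mul_of_nonneg_left ?_ hT0.le)
    have s2 := hasSum_le (fun g => ?_) s1 (((h2 n).mul_left 2).add
      (((hp n).sub (sm n fun g => ab (hχ n g)).hasSum).mul_left 2))
    · have := hmass n
      rw [one_div] at this
      linarith
    · have a1 := hF n (g i)⁻¹
      have a2 := hχ n g
      have a3 : (F n (g i)⁻¹ * (1 - χ n g)) ^ 2 ≤ 1 - χ n g := by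
        have b1 : F n (g i)⁻¹ * (1 - χ n g) ≤ 1 - χ n g :=
          mul_le_of_le_one_left (by linarith [a2.2]) a1.2
        have b2 : 0 ≤ F n (g i)⁻¹ * (1 - χ n g) := mul_nonneg a1.1 (by linarith [a2.2])
        nlinarith [a2.1]
      have a4 : (F n (g i)⁻¹ - m n) ^ 2 ≤ 2 * Φ n g ^ 2 + 2 * (1 - χ n g) := by
        simp only [Φ]
        nlinarith [sq_nonneg (F n (g i)⁻¹ * χ n g - m n - F n (g i)⁻¹ * (1 - χ n g))]
      nlinarith [h0 n g]
  · filter_upwards [hs (s i)⁻¹ (ε / 2) (half_pos hε), hsl s (ε / 2) (half_pos hε)] with n h1 h2 g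
    have key : ∀ g', |F n (g' i)⁻¹ - F n (g i)⁻¹| ≤ ε / 2 → |χ n g' - χ n g| ≤ ε / 2 →
        ‖(Φ n g' : ℂ) - Φ n g‖ ≤ ε := fun g' q1 q2 => by
      rw [← Complex.ofReal_sub, Complex.norm_real, Real.norm_eq_abs]
      have e : Φ n g' - Φ n g =
          (F n (g' i)⁻¹ - F n (g i)⁻¹) * χ n g' + F n (g i)⁻¹ * (χ n g' - χ n g) := by
        simp only [Φ]; ring
      rw [e]
      refine (abs_add_le _ _).trans ?_
      rw [abs_mul, abs_mul]
      nlinarith [ab (hχ n g'), ab (hF n (g i)⁻¹), abs_nonneg (F n (g' i)⁻¹ - F n (g i)⁻¹),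
        abs_nonneg (χ n g' - χ n g)]
    exact ⟨key _ (by simpa using (h1 _).2) (h2 g).1, key _ (by simpa using (h1 _).1) (h2 g).2⟩
  · simp [Φ, h]
  · have h1 := hasSum_int (hc n) (norm_w L) (hΦ' n) fun x => hasSum_inner_mulOp ⟨1, hΦ' n⟩
      (L.w (coc (al (k n))⁻¹ x)⁻¹ (dt 1))
    have h2 : HasSum (fun g => p n g * Φ n g) 0 := by
      have := (sm n fun g => ab (hfχ n g)).hasSum.sub ((hp n).mul_right (m n))
      rw [mul_div_cancel₀ _ hT0.ne', sub_self] at this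
      exact this.congr_fun fun g => by simp only [Φ]; ring
    refine h1.unique ?_
    simpa using Complex.hasSum_ofReal.2 h2

end Crest.Agent.N111.Cn
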