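import Crest.Agent.N111.C.Core
import Crest.Agent.N111.C.NoMean
import Crest.Agent.N111.C.Trans

/-!
# Row 111, module C: `ConcStmt`.
-/

namespace Crest.Agent.N111

theorem conc : ConcStmt := Cn.conc_of (Cn.core (Cn.endC Cn.noMean)) Cn.trans

end Crest.Agent.N111
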