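import Crest.Agent.N111.C.Form
import Crest.Agent.N111.Lib.Geo

/-!
# Row 111, module C: END, asymptotically central vectors are asymptotically scalar (helper38).
-/

set_option autoImplicit false
set_option linter.unusedSectionVars false

namespace Crest.Agent.N111.Cn

open Topology Filter
open scoped InnerProductSpace ComplexConjugate ComplexOrder
open Crest.OperatorAlgebra

/-! ### cutoffs at infinity -/

theorem abs_clamp_sub (a b : ℝ) : |max 0 (min 1 a) - max 0 (min 1 b)| ≤ |a - b| :=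
  (abs_max_sub_max_le_max _ _ _ _).trans (max_le (by simp)
    ((abs_min_sub_min_le_max _ _ _ _).trans (max_le (by simp) le_rfl)))

/-- slowly varying cutoffs at infinity -/
structure IsChi (χ : ℕ → Γ → ℝ) : Prop where
  nonneg : ∀ R μ, 0 ≤ χ R μ
  le_one : ∀ R μ, χ R μ ≤ 1
  zero : ∀ μ, ∀ᶠ R in atTop, χ R μ = 0
  fin : ∀ R, {μ | χ R μ ≠ 1}.Finite
  slow : ∀ ν, ∀ ε > 0, ∀ᶠ R in atTop, ∀ μ, |χ R (ν * μ) - χ R μ| ≤ ε ∧ |χ R (μ * ν) - χ R μ| ≤ ε

theorem exists_chi : ∃ χ, IsChi χ := by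
  have h0 : ∀ c : ℝ, ∀ ε > 0, ∀ᶠ R : ℕ in atTop, c / (R + 1) ≤ ε := fun c ε hε =>
    (tendsto_const_nhds.div_atTop (tendsto_atTop_add_const_right _ 1
      tendsto_natCast_atTop_atTop)).eventually (ge_mem_nhds hε)
  refine ⟨fun R μ => max 0 (min 1 (Real.log (nm (ι μ)) / (R + 1) - 1)), fun _ _ => le_max_left _ _,
    fun _ _ => max_le zero_le_one (min_le_left _ _), fun μ => ?_, fun R => ?_, fun ν ε hε => ?_⟩
  · exact (h0 (Real.log (nm (ι μ))) 1 one_pos).mono fun R hR =>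
      max_eq_left ((min_le_right _ _).trans (by linarith))
  · refine (finite_nm_le (Real.exp (2 * (R + 1)))).subset fun μ hμ => ?_
    by_contra h
    have h1 := (Real.lt_log_iff_exp_lt (nm_pos (ι μ))).2 (not_le.1 h)
    have h2 : 2 ≤ Real.log (nm (ι μ)) / (R + 1) := (le_div_iff₀ (by positivity)).2 h1.le
    exact hμ ((congrArg _ (min_eq_left (by linarith))).trans (max_eq_right zero_le_one))
  · filter_upwards [h0 (Real.log (3 * max (nm (ι ν)) (nm (ι ν)⁻¹))) ε hε] with R hR μ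
    obtain ⟨h1, h2⟩ := abs_log_nm_mul_sub_le (ι μ) (ι ν)
    have key : ∀ a b : ℝ, |a - b| ≤ Real.log (3 * max (nm (ι ν)) (nm (ι ν)⁻¹)) →
        |a / (R + 1) - 1 - (b / (R + 1) - 1)| ≤ ε := fun a b h => by
      rw [sub_sub_sub_cancel_right, ← sub_div, abs_div, abs_of_pos (by positivity : (0 : ℝ) < R + 1)]
      exact (div_le_div_of_nonneg_right h (by positivity)).trans hR
    simp only [map_mul]
    exact ⟨(abs_clamp_sub _ _).trans (key _ _ h2), (abs_clamp_sub _ _).trans (key _ _ h1)⟩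

/-! ### real multipliers -/

section
variable {K : Type}

/-- multiplication by a real function -/
noncomputable def rm (φ : K → ℝ) : Op K := mulOp fun g => (φ g : ℂ)

/-- bounded real functions -/
def Rb (φ : K → ℝ) : Prop := Bdd fun g => (φ g : ℂ)

variable {φ ψ : K → ℝ} {C : ℝ}

theorem rb_of (h : ∀ g, |φ g| ≤ C) : Rb φ := ⟨C, fun g => by simpa using h g⟩

theorem norm_rm_le (hC : 0 ≤ C) (h : ∀ g, |φ g| ≤ C) : ‖rm φ‖ ≤ C :=
  norm_mulOp_le hC fun g => by simpa using h g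

theorem norm_rm_sub_le (hφ : Rb φ) (hψ : Rb ψ) (hC : 0 ≤ C) (h : ∀ g, |φ g - ψ g| ≤ C) :
    ‖rm φ - rm ψ‖ ≤ C := by
  rw [rm, rm, ← mulOp_sub hφ hψ]
  exact norm_mulOp_le hC fun g => by exact_mod_cast h g

theorem hasSum_rm (hφ : Rb φ) (ξ : Ell2 K) :
    HasSum (fun g => ((φ g * ‖ξ g‖ ^ 2 : ℝ) : ℂ)) ⟪ξ, rm φ ξ⟫_ℂ := by
  refine (hasSum_inner ξ (rm φ ξ)).congr_fun fun g => ?_
  rw [rm, hφ.mulOp_apply, mul_left_comm, Complex.conj_mul']
  push_cast; rfl

theorem rm_nonneg (hφ : Rb φ) (h : ∀ g, 0 ≤ φ g) (ξ : Ell2 K) : 0 ≤ ⟪ξ, rm φ ξ⟫_ℂ :=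
  have := Complex.orderClosedTopology
  (hasSum_rm hφ ξ).nonneg fun g => Complex.zero_le_real.2 (mul_nonneg (h g) (sq_nonneg _))

theorem sum_le_rm (hφ : Rb φ) (h : ∀ g, 0 ≤ φ g) (ξ : Ell2 K) (s : Finset K) :
    ∑ g ∈ s, φ g * ‖ξ g‖ ^ 2 ≤ (⟪ξ, rm φ ξ⟫_ℂ).re :=
  sum_le_hasSum s (fun g _ => mul_nonneg (h g) (sq_nonneg _))
    (by simpa only [Complex.ofReal_re] using Complex.hasSum_re (hasSum_rm hφ ξ))

variable [Group K]

theorem rho_rm (hφ : Rb φ) (h : K) : rho K h * rm φ * rho K h⁻¹ = rm fun g => φ (g * h) := by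
  ext1 ξ
  refine l2_ext fun x => ?_
  have := Bdd.comp hφ fun g => g * h
  simp [rm, hφ.mulOp_apply, this.mulOp_apply]

theorem norm_rm_lam_le (hφ : Rb φ) (h : K) (hC : 0 ≤ C) (H : ∀ g, |φ (h⁻¹ * g) - φ g| ≤ C) :
    ‖rm φ * lam K h - lam K h * rm φ‖ ≤ C := by
  have h1 := Bdd.comp hφ fun g => h⁻¹ * g
  have e : lam K h * rm φ = rm (fun g => φ (h⁻¹ * g)) * lam K h := by
    ext1 ξ
    exact l2_ext fun x => by simp [rm, hφ.mulOp_apply, h1.mulOp_apply]
  rw [e, ← sub_mul]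
  refine (norm_mul_le _ _).trans ((mul_le_mul (norm_rm_sub_le hφ h1 hC fun g => ?_)
    ((lam K).norm_le h) (norm_nonneg _) hC).trans_eq (mul_one _))
  rw [abs_sub_comm]; exact H g

end

theorem tendsto_zero_of {β E : Type*} [NormedAddCommGroup E] {l : Filter β} {f : β → E}
    (h : ∀ ε > 0, ∀ᶠ k in l, ‖f k‖ ≤ ε) : Tendsto f l (𝓝 0) :=
  NormedAddGroup.tendsto_nhds_zero.2 fun ε hε =>
    (h (ε / 2) (half_pos hε)).mono fun _ hk => hk.trans_lt (half_lt_self hε)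

/-! ### the corner -/

variable {κ : Type} [Fintype κ] [DecidableEq κ] {S : LSet κ} {α : Type} {l : Filter α}
  {ζ ζ' : α → Ell2 (κ → Γ)} {X : α → Op (κ → Γ)} {T : Op (κ → Γ)} {C : ℝ}

theorem LSet.norm_le (S : LSet κ) (γ : Γ) : ‖S.w γ‖ ≤ 1 := by
  have h : ∀ γ, ‖S.w γ‖ * ‖S.w γ‖ = ‖S.w 1‖ := fun γ => by
    rw [← CStarRing.norm_star_mul_self, S.star, ← S.mul, inv_mul_cancel]
  have h1 : ‖S.w 1‖ ≤ 1 := by nlinarith [h 1, norm_nonneg (S.w 1)]
  nlinarith [h γ, norm_nonneg (S.w γ)]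

/-- `ζ` lives asymptotically in the corner -/
def LSet.Un (S : LSet κ) (l : Filter α) (ζ : α → Ell2 (κ → Γ)) : Prop :=
  ∀ z ∈ (lam (κ → Γ)).span, ∀ ε > 0, ∀ᶠ k in l, ‖z (ζ k) - ζ k‖ ≤ 2 * ‖(z - S.w 1) (dt 1)‖ + ε

theorem LSet.Cen.comp (h : S.Cen l ζ) {β : Type} {l' : Filter β} {f : β → α}
    (hf : Tendsto f l' l) : S.Cen l' fun k => ζ (f k) :=
  ⟨fun z hz ε hε => hf.eventually (h.bnL z hz ε hε), fun z hz ε hε => hf.eventually
    (h.bnR z hz ε hε), fun γ z hz ε hε => hf.eventually (h.cen γ z hz ε hε)⟩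

theorem LSet.cen_one (S : LSet κ) (l : Filter α) : S.Cen l fun _ => dt 1 :=
  ⟨fun z _ ε hε => .of_forall fun _ => by linarith [norm_nonneg (z (dt 1))],
    fun z hz ε hε => .of_forall fun _ => by
      rw [Rm_hat_LA (span_lam_le hz)]; linarith [norm_nonneg (z (dt 1))],
    fun γ z hz ε hε => .of_forall fun _ => by
      rw [Rm_hat_LA (span_lam_le hz), sub_self, norm_zero]; positivity⟩

theorem IsLim.commute_w [l.NeBot] (h : IsLim l ζ ζ' X T) (hζ : S.Cen l ζ) (hζ' : S.Cen l ζ')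
    (hX : ∀ k, ‖X k‖ ≤ C)
    (hl : ∀ g, Tendsto (fun k => X k * lam _ g - lam _ g * X k) l (𝓝 0)) (γ : Γ) :
    Commute T (S.w γ) :=
  h.commute hζ.bnR hζ'.bnR hX (S.mem γ) (S.norm_le γ) (by rw [S.star]; exact hζ.cen γ⁻¹)
    (hζ'.cen γ) hl

/-- a two-sided asymptotically central family has a scalar limit -/
theorem IsLim.scalar [l.NeBot] (h : IsLim l ζ ζ' X T) (hζ : S.Cen l ζ) (hζ' : S.Cen l ζ')
    (hu : S.Un l ζ') (hX : ∀ k, ‖X k‖ ≤ C)
    (hl : ∀ g, Tendsto (fun k => X k * lam _ g - lam _ g * X k) l (𝓝 0))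
    (hr : ∀ g, Tendsto (fun k => X k - rho _ g * X k * rho _ g⁻¹) l (𝓝 0)) :
    ∃ c : ℂ, T = c • S.w 1 := by
  have hw := h.commute_w hζ hζ' hX hl
  obtain ⟨c, hc⟩ := S.erg T (fun g => (h.commute_rho hζ.bnR hζ'.bnR (hr g)).eq.symm) hw
  refine ⟨c, ?_⟩
  rw [← hc, ← (hw 1).eq]
  refine (h.mul_unit hζ.bnR hX (S.mem 1) (S.norm_le 1) fun z hz ε hε => ?_).symm
  filter_upwards [hζ'.cen 1 z hz _ (half_pos hε), hu z hz _ (half_pos hε)] with k h1 h2
  rw [norm_sub_rev] at h1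
  linarith [norm_sub_le_norm_sub_add_norm_sub (Rm z (ζ' k)) (z (ζ' k)) (ζ' k)]

/-- the cut multiplier in leg `i` -/
noncomputable def Yo (χ : ℕ → Γ → ℝ) (i : κ) (f : Γ → ℝ) (R : ℕ) : Op (κ → Γ) :=
  rm fun g => χ R (g i) * f (g i)

theorem div_mul_le {C ε : ℝ} (hC : 0 ≤ C) (hε : 0 < ε) : ε / (C + 1) * C ≤ ε := by
  rw [div_mul_eq_mul_div, div_le_iff₀ (by linarith)]; nlinarith

namespace IsChi
variable {χ : ℕ → Γ → ℝ} (H : IsChi χ) {f f' : Γ → ℝ} (i : κ)
include H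

theorem abs_le {x : ℝ} (h : |x| ≤ C) (R : ℕ) (μ : Γ) : |χ R μ * x| ≤ C := by
  rw [abs_mul, abs_of_nonneg (H.nonneg R μ)]
  exact (mul_le_of_le_one_left (abs_nonneg _) (H.le_one R μ)).trans h

theorem norm_le (h : ∀ μ, |f μ| ≤ C) (R : ℕ) : ‖Yo χ i f R‖ ≤ C :=
  norm_rm_le ((abs_nonneg _).trans (h 1)) fun _ => H.abs_le (h _) _ _

theorem rb (hf : RB f) (R : ℕ) : Rb fun g : κ → Γ => χ R (g i) * f (g i) :=
  hf.elim fun _ h => rb_of fun _ => H.abs_le (h _) _ _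

theorem small (hf : Tendsto f cofinite (𝓝 0)) {ε : ℝ} (hε : 0 < ε) :
    ∀ᶠ R in atTop, ∀ μ, |χ R μ * f μ| ≤ ε := by
  have hfin := eventually_cofinite.1 (hf.abs.eventually (ge_mem_nhds (by simpa using hε)))
  filter_upwards [hfin.eventually_all.2 fun μ _ => H.zero μ] with R hR μ
  by_cases h : |f μ| ≤ ε
  · exact H.abs_le h _ _
  · rw [hR μ h, zero_mul, abs_zero]; exact hε.le

theorem add (hf : RB f) (hf' : RB f') (R : ℕ) :
    Yo χ i (fun μ => f μ + f' μ) R = Yo χ i f R + Yo χ i f' R := by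
  simp only [Yo, rm, ← mulOp_add (H.rb i hf R) (H.rb i hf' R), mul_add, Complex.ofReal_add]

theorem smul (c : ℝ) (hf : RB f) (R : ℕ) :
    Yo χ i (fun μ => c * f μ) R = (c : ℂ) • Yo χ i f R := by
  simp only [Yo, rm, ← mulOp_smul _ (H.rb i hf R), mul_left_comm _ c, Complex.ofReal_mul c]

theorem tendsto_zero (hf : Tendsto f cofinite (𝓝 0)) : Tendsto (Yo χ i f) atTop (𝓝 0) :=
  tendsto_zero_of fun _ hε => (H.small hf hε).mono fun _ h => norm_rm_le hε.le fun _ => h _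

theorem left (hf : RB f) (hs : ∀ ν, Tendsto (fun μ => f (ν * μ) - f μ) cofinite (𝓝 0))
    (g : κ → Γ) : Tendsto (fun R => Yo χ i f R * lam _ g - lam _ g * Yo χ i f R) atTop (𝓝 0) := by
  obtain ⟨C, hC⟩ := id hf
  have hC0 := (abs_nonneg _).trans (hC 1)
  refine tendsto_zero_of fun ε hε => ?_
  filter_upwards [H.small (hs (g i)⁻¹) (half_pos hε),
    H.slow (g i)⁻¹ (ε / 2 / (C + 1)) (by positivity)] with R a1 a2
  refine norm_rm_lam_le (H.rb i hf R) g hε.le fun x => ?_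
  have a3 := mul_le_mul (a2 (x i)).1 (hC ((g i)⁻¹ * x i)) (abs_nonneg _) (by positivity)
  rw [← abs_mul] at a3
  calc _ = |(χ R ((g i)⁻¹ * x i) - χ R (x i)) * f ((g i)⁻¹ * x i) +
        χ R (x i) * (f ((g i)⁻¹ * x i) - f (x i))| := by
        congr 1; simp only [Pi.mul_apply, Pi.inv_apply]; ring
    _ ≤ _ := (abs_add_le _ _).trans (by linarith [a1 (x i), div_mul_le hC0 (half_pos hε)])

theorem right (hf : RB f) (g : κ → Γ) : Tendsto (fun R => Yo χ i (fun μ => f (μ * g i)) R -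
    rho _ g * Yo χ i f R * rho _ g⁻¹) atTop (𝓝 0) := by
  obtain ⟨C, hC⟩ := id hf
  have hC0 := (abs_nonneg _).trans (hC 1)
  refine tendsto_zero_of fun ε hε => ?_
  filter_upwards [H.slow (g i) (ε / (C + 1)) (by positivity)] with R a2
  rw [Yo, Yo, rho_rm (H.rb i hf R)]
  refine norm_rm_sub_le (rb_of fun x => H.abs_le (hC _) _ _) (rb_of fun x => H.abs_le (hC _) _ _)
    hε.le fun x => ?_
  simp only [Pi.mul_apply]
  rw [← sub_mul, abs_mul, abs_sub_comm]
  exact (mul_le_mul (a2 (x i)).2 (hC _) (abs_nonneg _) (by positivity)).trans (div_mul_le hC0 hε)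

/-- the limit of the cutoffs vanishes -/
theorem lim_zero (hN : NoMeanStmt) (V : Ultrafilter α) (hζ : S.Cen V ζ) (hu : S.Un V ζ)
    {r : α → ℕ} (hr : Tendsto r V atTop) :
    Tendsto (fun k => (⟪ζ k, Yo χ i (fun _ => 1) (r k) (ζ k)⟫_ℂ).re) V (𝓝 0) := by
  have hex : ∀ f, ∃ T, RB f → IsLim V ζ ζ (fun k => Yo χ i f (r k)) T := fun f => by
    by_cases h : RB f
    · obtain ⟨C, hC⟩ := h
      exact (exists_isLim V hζ.bnR hζ.bnR fun k => H.norm_le i hC _).imp fun _ h _ => h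
    · exact ⟨0, fun h' => (h h').elim⟩
  choose T hT using hex
  obtain ⟨ω, ω1, -, ω0, ωr⟩ := S.tr i
  have rb1 : RB fun _ => 1 := ⟨1, fun _ => by simp⟩
  have key := hN (fun f => (ω (T f)).re) ?_ ?_ ?_ ?_ ?_
  · obtain ⟨c, hc⟩ := (hT _ rb1).scalar hζ hζ hu (C := 1)
      (fun _ => H.norm_le i (fun _ => by simp) _)
      (fun g => (H.left i rb1 (fun _ => by simpa using tendsto_const_nhds) g).comp hr)
      fun g => (H.right i rb1 g).comp hr
    simp only [hc, map_smul, ω1, smul_eq_mul, mul_one] at key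
    have h3 := (Complex.continuous_re.tendsto _).comp ((hT _ rb1).ent 1 1)
    have h4 : (⟪dt 1, T (fun _ => 1) (dt 1)⟫_ℂ).re = 0 := by
      rw [hc, ← tau_eq_inner, tau_smul, tau_proj (by rw [← S.mul, one_mul])
        (by rw [S.star, inv_one]), Complex.mul_re, key, Complex.ofReal_im]
      simp
    rw [h4] at h3
    simpa [Function.comp_def] using h3
  · intro f g hf hg
    obtain ⟨C, hC⟩ := id hf
    obtain ⟨D, hD⟩ := id hg
    have := hT _ ⟨C + D, fun μ => (abs_add_le _ _).trans (add_le_add (hC μ) (hD μ))⟩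
    simp only [H.add i hf hg] at this
    rw [this.unique ((hT f hf).add (hT g hg)), map_add, Complex.add_re]
  · intro c f hf
    obtain ⟨C, hC⟩ := id hf
    have := hT (fun μ => c * f μ) ⟨|c| * C, fun μ => by rw [abs_mul]; gcongr; exact hC μ⟩
    simp only [H.smul i c hf] at this
    rw [this.unique ((hT f hf).smul c), map_smul, smul_eq_mul, Complex.re_ofReal_mul]
  · exact fun f hf h0 => ω0 _ ((hT f hf).nonneg fun q =>
      rm_nonneg (H.rb i hf _) fun g => mul_nonneg (H.nonneg _ _) (h0 _))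
  · intro f hf
    obtain ⟨C, hC⟩ := hf.abs.bddAbove_range_of_cofinite
    have := (hT f ⟨C, fun μ => hC ⟨μ, rfl⟩⟩).unique (IsLim.zero.congr hζ.bnR hζ.bnR
      (by simpa only [sub_zero, Function.comp_def] using (H.tendsto_zero i hf).comp hr))
    rw [this, map_zero, Complex.zero_re]
  · intro f hf hs ν
    obtain ⟨C, hC⟩ := id hf
    have e := (hT _ ⟨C, fun μ => hC (μ * ν)⟩).unique (((hT f hf).cj (Pi.mulSingle i ν)).congr
      hζ.bnR hζ.bnR (by
        simpa only [Pi.mulSingle_eq_same, Function.comp_def] using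
          (H.right i hf (Pi.mulSingle i ν)).comp hr))
    rw [e, ωr _ ((hT f hf).commute_w hζ hζ (fun _ => H.norm_le i hC _)
      fun g => (H.left i hf hs g).comp hr) fun g hg => (hT f hf).commute_rho hζ.bnR hζ.bnR
        (by simpa only [hg, mul_one, Function.comp_def] using (H.right i hf g).comp hr)]

end IsChi

/-- no escape of mass to infinity in leg `i` -/
theorem esc (hN : NoMeanStmt) (U : Ultrafilter α) (hζ : S.Cen U ζ) (hu : S.Un U ζ) (i : κ) {ε : ℝ}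
    (hε : 0 < ε) : ∃ F : Finset Γ, ∀ᶠ k in U, ∀ s : Finset (κ → Γ), (∀ g ∈ s, g i ∉ F) →
      ∑ g ∈ s, ‖ζ k g‖ ^ 2 ≤ ε := by
  by_contra hcon
  replace hcon : ∀ F : Finset Γ, ∀ᶠ k in U, ∃ s : Finset (κ → Γ), (∀ g ∈ s, g i ∉ F) ∧
      ε < ∑ g ∈ s, ‖ζ k g‖ ^ 2 := fun F =>
    (Ultrafilter.eventually_not.2 (not_exists.1 hcon F)).mono fun k hk => by simpa using hk
  obtain ⟨χ, H⟩ := exists_chi
  have : ((atTop : Filter ℕ).curry (U : Filter α)).NeBot :=
    ⟨fun h => (eventually_curry_iff.1 (eventually_false_iff_eq_bot.2 h)).exists.elim fun _ h =>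
      h.exists.elim fun _ => id⟩
  obtain ⟨V, hV⟩ := Ultrafilter.exists_le ((atTop : Filter ℕ).curry (U : Filter α))
  replace hV : ∀ {p : ℕ × α → Prop}, (∀ᶠ R in atTop, ∀ᶠ k in U, p (R, k)) → ∀ᶠ q in V, p q :=
    fun h => (eventually_curry_iff.2 h).filter_mono hV
  have h1 : Tendsto Prod.fst (V : Filter (ℕ × α)) atTop := fun s hs =>
    hV (Eventually.mono hs fun R hR => .of_forall fun _ => hR)
  have h2 : Tendsto Prod.snd (V : Filter (ℕ × α)) U := fun s hs => hV (.of_forall fun _ => hs)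
  have h3 := H.lim_zero i hN V (hζ.comp h2) (fun z hz ε hε => h2.eventually (hu z hz ε hε)) h1
  refine hε.not_ge (ge_of_tendsto h3 (hV (.of_forall fun R => ?_)))
  filter_upwards [hcon (H.fin R).toFinset] with k ⟨s, hs, hs'⟩
  refine hs'.le.trans (le_trans (Finset.sum_le_sum fun g hg => ?_)
    (sum_le_rm (H.rb i (f := fun _ => 1) ⟨1, fun _ => by simp⟩ R)
      (fun g => by simpa using H.nonneg R _) (ζ k) s))
  have := hs g hg
  simp only [Set.Finite.mem_toFinset, Set.mem_ofPred_eq, not_not] at this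
  simp [this]

theorem endC (hN : NoMeanStmt) : EndStmt := by
  intro κ _ _ S α l ζ hζ hu ε hε
  refine mem_iff_ultrafilter.2 fun U hU => ?_
  replace hζ : S.Cen U ζ := hζ.comp (tendsto_id'.2 hU)
  replace hu : S.Un U ζ := fun z hz ε hε => hU (hu z hz ε hε)
  have h1 : ∀ _ : α, ‖(1 : Op (κ → Γ))‖ ≤ 1 := fun _ => ContinuousLinearMap.norm_id_le
  have h0 := S.cen_one (U : Filter α)
  obtain ⟨Z, hZ⟩ := exists_isLim U (ζ := fun _ => dt 1) h0.bnR hζ.bnR h1
  obtain ⟨c, rfl⟩ := hZ.scalar h0 hζ hu h1 (fun g => by simp) fun g => by simp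
  set v := (c • S.w 1) (dt 1) with hv
  have h2 : ∀ g, Tendsto (fun k => ζ k g) U (𝓝 (v g)) := fun g => by simpa [hv] using hZ.ent g 1
  have hn : (0 : ℝ) < Fintype.card κ + 1 := by positivity
  choose F hF using fun i => esc hN U hζ hu i (ε := (ε / 3) ^ 2 / (Fintype.card κ + 1))
    (by positivity)
  obtain ⟨s₀, hs₀⟩ := exists_finset_approx v (ε := ε / 3) (by positivity)
  classical
  set t := s₀ ∪ Fintype.piFinset F
  have h3 : Tendsto (fun k => ∑ g ∈ t, ζ k g • dt g) U (𝓝 (∑ g ∈ t, v g • dt g)) :=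
    tendsto_finsetSum _ fun g _ => (h2 g).smul_const _
  filter_upwards [eventually_all.2 hF, Metric.tendsto_nhds.1 h3 (ε / 3) (by positivity)]
    with k a1 a2
  refine ⟨c, ?_⟩
  have a3 := hs₀ t Finset.subset_union_left
  have a4 : ‖ζ k - ∑ g ∈ t, ζ k g • dt g‖ ≤ ε / 3 := by
    refine norm_le_of_sum _ (by positivity) fun s => ?_
    calc _ ≤ ∑ x ∈ s, ∑ i, if x i ∉ F i then ‖ζ k x‖ ^ 2 else 0 := by
          refine Finset.sum_le_sum fun x _ => ?_
          have h0 : ∀ i ∈ Finset.univ, 0 ≤ if x i ∉ F i then ‖ζ k x‖ ^ 2 else 0 := fun i _ => by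
            positivity
          rw [l2_sub_apply, l2_sum_apply]
          by_cases hx : x ∈ t
          · simpa [dt_apply, hx] using Finset.sum_nonneg h0
          · obtain ⟨i, hi⟩ := not_forall.1 fun h =>
              hx (Finset.mem_union_right _ (Fintype.mem_piFinset.2 h))
            simpa [dt_apply, hx, hi] using Finset.single_le_sum h0 (Finset.mem_univ i)
      _ ≤ ∑ _i : κ, (ε / 3) ^ 2 / (Fintype.card κ + 1) := by
          rw [Finset.sum_comm]
          refine Finset.sum_le_sum fun i _ => ?_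
          rw [← Finset.sum_filter]
          exact a1 i _ fun g hg => (Finset.mem_filter.1 hg).2
      _ ≤ _ := by
          rw [Finset.sum_const, Finset.card_univ, nsmul_eq_mul, mul_div_assoc', div_le_iff₀ hn]
          nlinarith [sq_nonneg (ε / 3)]
  rw [dist_eq_norm] at a2
  rw [norm_sub_rev] at a3
  change ‖ζ k - v‖ ≤ ε
  linarith [norm_sub_le_norm_sub_add_norm_sub (ζ k) (∑ g ∈ t, ζ k g • dt g) v,
    norm_sub_le_norm_sub_add_norm_sub (∑ g ∈ t, ζ k g • dt g) (∑ g ∈ t, v g • dt g) v]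

end Crest.Agent.N111.Cn
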