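import Crest.Agent.N111.C.Ap
import Crest.Agent.N111.C.End

/-!
# Row 111, module C: the core concentration statement.
-/

set_option autoImplicit false

namespace Crest.Agent.N111.Cn

open MeasureTheory Topology Filter ContinuousLinearMap
open scoped InnerProductSpace ComplexConjugate
open Crest.OperatorAlgebra

variable {κ : Type} [Fintype κ] [DecidableEq κ] (S : LSet κ)

lemma LSet.pp : S.w 1 * S.w 1 = S.w 1 := by rw [← S.mul, one_mul]

lemma LSet.sp : Star.star (S.w 1) = S.w 1 := by rw [S.star, inv_one]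

lemma LSet.star_mul_self (γ : Γ) : Star.star (S.w γ) * S.w γ = S.w 1 := by
  rw [S.star, ← S.mul, inv_mul_cancel]

lemma LSet.mul_star_self (γ : Γ) : S.w γ * Star.star (S.w γ) = S.w 1 := by
  rw [S.star, ← S.mul, mul_inv_cancel]

lemma LSet.norm_hat_le (γ : Γ) : ‖S.w γ (dt 1)‖ ≤ 1 := (N111.norm_hat_le _).trans (S.norm_le γ)

lemma coc_comm {a h : G} (hc : Commute a h) (x : X) :
    (coc a (h • x))⁻¹ = coc h x * (coc a x)⁻¹ * (coc h (a • x))⁻¹ := by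
  have h1 := coc_mul a h x
  rw [hc.eq, coc_mul] at h1
  rw [eq_mul_inv_of_mul_eq h1.symm]
  group

lemma tendsto_integral_coc {α : ℕ → Γ → ℝ} {C : ℝ} (hb : ∀ n γ, ‖α n γ‖ ≤ C)
    (h : ∀ γ, Tendsto (fun n => α n γ) atTop (𝓝 0)) (g : G) :
    Tendsto (fun n => ∫ x, α n (coc g x) ∂μ) atTop (𝓝 0) := by
  simpa using tendsto_integral_of_dominated_convergence (μ := μ) (F := fun n x => α n (coc g x))
    (f := fun _ => 0) (fun _ => C)
    (fun n => (sm_comp (by fun_prop) (α n)).aestronglyMeasurable) (integrable_const _)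
    (fun n => Eventually.of_forall fun x => hb _ _) (Eventually.of_forall fun x => h _)

lemma integral_smul_eq (g : G) {E : Type*} [NormedAddCommGroup E] [NormedSpace ℝ E] (f : X → E) :
    ∫ x, f (g • x) ∂μ = ∫ x, f x ∂μ := integral_smul_eq_self f

lemma integral_le_comb {f b b' a a' : X → ℝ} {e : ℝ} (i1 : Integrable b μ) (i2 : Integrable b' μ)
    (i3 : Integrable a μ) (i4 : Integrable a' μ) (j1 : ∫ x, b' x ∂μ = ∫ x, b x ∂μ)
    (j2 : ∫ x, a' x ∂μ = ∫ x, a x ∂μ) (h0 : ∀ x, 0 ≤ f x)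
    (h : ∀ x, f x ≤ 2 * b x - 2 * b' x + 4 * e + 4 * a x + 4 * a' x) :
    ∫ x, f x ∂μ ≤ 4 * e + 8 * ∫ x, a x ∂μ := by
  have k1 : Integrable (fun x => 2 * b x - 2 * b' x) μ := (i1.const_mul 2).sub (i2.const_mul 2)
  have k2 : Integrable (fun x => 2 * b x - 2 * b' x + 4 * e) μ := k1.add (integrable_const _)
  have k3 : Integrable (fun x => 2 * b x - 2 * b' x + 4 * e + 4 * a x) μ := k2.add (i3.const_mul 4)
  refine (integral_mono_of_nonneg (Eventually.of_forall h0) (k3.add (i4.const_mul 4))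
    (Eventually.of_forall h)).trans_eq ?_
  rw [integral_add' k3 (i4.const_mul 4), integral_add k2 (i3.const_mul 4),
    integral_add k1 (integrable_const _), integral_sub (i1.const_mul 2) (i2.const_mul 2)]
  simp only [integral_const_mul, j1, j2, integral_const, probReal_univ, smul_eq_mul]
  ring

/-- two-sided covariance of the multiplier up to approximation errors -/
lemma cov_err {K : Type} [Group K] {M W₁ W₂ w₁ w₂ y a : Op K} (nM : ‖M‖ ≤ 1) (m₁ : W₁ ∈ LA K)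
    (m₂ : W₂ ∈ LA K) (n₁ : ‖W₁‖ ≤ 1) (n₂ : ‖W₂‖ ≤ 1) (k₁ : w₁ ∈ LA K) (k₂ : w₂ ∈ LA K)
    (l₂ : ‖w₂‖ ≤ 1) (hy : y ∈ LA K) (ny : ‖y‖ ≤ 1) (ha : a ∈ LA K)
    (hM : a (dt 1) = M (y (dt 1))) :
    ‖M ((w₁ * y * star w₂) (dt 1)) - (W₁ * a * star W₂) (dt 1)‖
      ≤ cn M W₁ + cn M (Rm (star W₂)) + ‖(W₁ - w₁) (dt 1)‖ + ‖(W₂ - w₂) (dt 1)‖ := by
  set R := Rm (star W₂) with hR
  have nR : ‖R‖ ≤ 1 := by rwa [hR, norm_Rm, nstar]
  have ny' : ‖y (dt 1)‖ ≤ 1 := (norm_hat_le y).trans ny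
  have e1 : (W₁ * a * star W₂) (dt 1) = W₁ (R (M (y (dt 1)))) := by
    rw [← hM, hR, Rm_apply_LA (star_mem m₂) ha]; rfl
  have e2 : ‖W₁ (R (M (y (dt 1)))) - W₁ (M (R (y (dt 1))))‖ ≤ cn M R := by
    rw [← map_sub]
    exact ((W₁.le_of_opNorm_le n₁ _).trans_eq (one_mul _)).trans
      ((cn_apply M R _).trans (mul_le_of_le_one_right (cn_nonneg _ _) ny'))
  have e3 : ‖W₁ (M (R (y (dt 1)))) - M (W₁ (R (y (dt 1))))‖ ≤ cn M W₁ :=
    (cn_apply M W₁ _).trans (mul_le_of_le_one_right (cn_nonneg _ _)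
      (((R.le_of_opNorm_le nR _).trans_eq (one_mul _)).trans ny'))
  have e4 : ‖M (W₁ (R (y (dt 1)))) - M ((w₁ * y * star w₂) (dt 1))‖
      ≤ ‖(W₁ - w₁) (dt 1)‖ + ‖(W₂ - w₂) (dt 1)‖ := by
    rw [← map_sub]
    refine ((M.le_of_opNorm_le nM _).trans_eq (one_mul _)).trans ?_
    have h1 : W₁ (R (y (dt 1))) - (w₁ * y * star w₂) (dt 1)
        = (W₁ - w₁) ((y * star w₂) (dt 1)) + (W₁ * y) (star (W₂ - w₂) (dt 1)) := by
      rw [hR, Rm_apply_LA (star_mem m₂) hy, star_sub]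
      simp only [sub_apply, mul_apply_eq_comp, map_sub]
      abel
    rw [h1]
    refine (norm_add_le _ _).trans (add_le_add ?_ ?_)
    · refine (nhm (sub_mem m₁ k₁) (mul_mem hy (star_mem k₂))).trans
        (mul_le_of_le_one_right (norm_nonneg _) ((norm_mul_le _ _).trans
          (mul_le_one₀ ny (norm_nonneg _) (by rwa [nstar]))))
    · rw [← norm_star_hat_LA (sub_mem m₂ k₂)]
      exact ((W₁ * y).le_of_opNorm_le ((norm_mul_le _ _).trans
        (mul_le_one₀ n₁ (norm_nonneg _) ny)) _).trans_eq (one_mul _)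
  rw [e1, norm_sub_rev]
  linarith [norm_sub_le_norm_sub_add_norm_sub (W₁ (R (M (y (dt 1))))) (W₁ (M (R (y (dt 1)))))
      (M ((w₁ * y * star w₂) (dt 1))),
    norm_sub_le_norm_sub_add_norm_sub (W₁ (M (R (y (dt 1))))) (M (W₁ (R (y (dt 1)))))
      (M ((w₁ * y * star w₂) (dt 1)))]

lemma Rm_comm {K : Type} [Group K] {a b : Op K} (ha : a ∈ LA K) (hb : b ∈ LA K) (v : Ell2 K) :
    Rm b (a v) = a (Rm b v) := by
  rw [← mul_apply_eq_comp, ← LA_comm_RA ha (Rm_mem_RA hb), mul_apply_eq_comp]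

/-- from almost `Ad`-invariance to `Cen` -/
theorem LSet.cen_of {Φ : ℕ → (κ → Γ) → ℂ} (hb : ∀ n g, ‖Φ n g‖ ≤ 1) (hs : Slow Φ)
    {W : ℕ → Γ → Op (κ → Γ)} (nW : ∀ n γ, ‖W n γ‖ ≤ 1)
    (hW : ∀ γ, Ap (fun n => mulOp (Φ n)) (fun n => W n γ) (S.w γ)) {ζ : ℕ → Ell2 (κ → Γ)}
    (hζ : ∀ n, BN (mulOp (Φ n)) (ζ n))
    (h : ∀ γ, Tendsto (fun n => ‖W n γ (Rm (Star.star (W n γ)) (ζ n)) - ζ n‖) atTop (𝓝 0)) :
    S.Cen atTop ζ ∧ ∀ z ∈ (lam (κ → Γ)).span, ∀ ε > 0, ∀ᶠ k in atTop,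
      ‖z (ζ k) - ζ k‖ ≤ 2 * ‖(z - S.w 1) (dt 1)‖ + ε := by
  have tri : ∀ {a b c : ℕ → Ell2 (κ → Γ)}, Tendsto (fun n => ‖a n - b n‖) atTop (𝓝 0) →
      Tendsto (fun n => ‖b n - c n‖) atTop (𝓝 0) → Tendsto (fun n => ‖a n - c n‖) atTop (𝓝 0) :=
    fun h1 h2 => squeeze_zero (fun _ => norm_nonneg _)
      (fun n => norm_sub_le_norm_sub_add_norm_sub _ _ _) (by simpa using h1.add h2)
  have sym : ∀ {a b : ℕ → Ell2 (κ → Γ)}, Tendsto (fun n => ‖a n - b n‖) atTop (𝓝 0) →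
      Tendsto (fun n => ‖b n - a n‖) atTop (𝓝 0) := fun h1 => by
    simpa only [norm_sub_rev] using h1
  have app : ∀ {a b : ℕ → Ell2 (κ → Γ)} (T : ℕ → Op (κ → Γ)), (∀ n, ‖T n‖ ≤ 1) →
      Tendsto (fun n => ‖a n - b n‖) atTop (𝓝 0) →
      Tendsto (fun n => ‖T n (a n) - T n (b n)‖) atTop (𝓝 0) := fun T hT h1 =>
    squeeze_zero (fun _ => norm_nonneg _) (fun n => by
      rw [← map_sub]; exact ((T n).le_of_opNorm_le (hT n) _).trans_eq (one_mul _)) h1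
  have nR : ∀ n γ, ‖Rm (Star.star (W n γ))‖ ≤ 1 := fun n γ => by rw [norm_Rm, nstar]; exact nW n γ
  have mW : ∀ n γ, W n γ ∈ LA (κ → Γ) := fun n γ => (hW γ).mem n
  have hU : Tendsto (fun n => ‖W n 1 (ζ n) - ζ n‖) atTop (𝓝 0) := by
    have h1 := ((hW 1).mul (hW 1))
    rw [S.pp] at h1
    have h2 := app _ (nR · 1) (h1.close' (hW 1) hζ).1
    simp only [mul_apply_eq_comp, Rm_comm (mW _ 1) (star_mem (mW _ 1))] at h2
    exact tri (tri (sym (app _ (nW · 1) (h 1))) h2) (h 1)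
  have hU' : Tendsto (fun n => ‖Rm (Star.star (W n 1)) (ζ n) - ζ n‖) atTop (𝓝 0) := by
    have h1 := ((hW 1).adj.mul (hW 1).adj)
    rw [S.sp, S.pp, ← S.sp] at h1
    have h2 := app _ (nW · 1) (h1.close' (hW 1).adj hζ).2
    simp only [Rm_mul, mul_apply_eq_comp] at h2
    have h3 := app _ (nR · 1) (h 1)
    simp only [Rm_comm (mW _ 1) (star_mem (mW _ 1))] at h3
    exact tri (tri (sym h3) h2) (h 1)
  have hC : ∀ γ, Tendsto (fun n => ‖W n γ (ζ n) - Rm (W n γ) (ζ n)‖) atTop (𝓝 0) := fun γ => by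
    have h1 := ((hW γ).adj.mul (hW γ))
    rw [S.star_mul_self, ← S.sp] at h1
    have h2 := app _ (nW · γ) (tri (h1.close' (hW 1).adj hζ).2 hU')
    simp only [Rm_mul, mul_apply_eq_comp] at h2
    have h3 := app (fun n => Rm (W n γ)) (fun n => by rw [norm_Rm]; exact nW n γ) (h γ)
    simp only [Rm_comm (mW _ γ) (mW _ γ)] at h3
    exact tri (sym h2) h3
  refine ⟨⟨fun z hz ε hε => ?_, fun z hz ε hε => ?_, fun γ z hz ε hε => ?_⟩, fun z hz ε hε => ?_⟩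
  · filter_upwards [(slow_lam hb hs hz).eventually (ge_mem_nhds hε)] with n hn
    exact ((hζ n).L z (span_lam_le hz)).trans (by linarith)
  · filter_upwards [(slow_lam hb hs (star_mem hz)).eventually (ge_mem_nhds hε)] with n hn
    exact ((hζ n).R z (span_lam_le hz)).trans (by linarith)
  · have h3 : 0 < ε / 3 := by positivity
    filter_upwards [(Ap.const hb hs hz).close (hW γ) h3, (hC γ).eventually (ge_mem_nhds h3)]
      with n h1 h2
    obtain ⟨h4, h5⟩ := h1 _ (hζ n)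
    rw [norm_sub_rev] at h5
    linarith [norm_sub_le_norm_sub_add_norm_sub (z (ζ n)) (W n γ (ζ n)) (Rm z (ζ n)),
      norm_sub_le_norm_sub_add_norm_sub (W n γ (ζ n)) (Rm (W n γ) (ζ n)) (Rm z (ζ n))]
  · filter_upwards [(Ap.const hb hs hz).close (hW 1) (half_pos hε),
      hU.eventually (ge_mem_nhds (half_pos hε))] with n h1 h2
    linarith [(h1 _ (hζ n)).1, norm_sub_le_norm_sub_add_norm_sub (z (ζ n)) (W n 1 (ζ n)) (ζ n)]

/-- **Concentration of absolute values.** -/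
theorem absConc (hE : EndStmt) {a : ℕ → G} (ha : ∀ n, CommH (a n)) {Φ : ℕ → (κ → Γ) → ℂ}
    (hb : ∀ n g, ‖Φ n g‖ ≤ 1) (hs : Slow Φ) {A ξ : ℕ → Γ → Op (κ → Γ)}
    (hA : ∀ n γ, A n γ ∈ LA (κ → Γ)) (hA' : ∀ n γ, A n γ (dt 1) = mulOp (Φ n) (S.w γ (dt 1)))
    (hξ : ∀ n γ, IsAbs (A n γ) (ξ n γ) (1 / ((n : ℝ) + 1))) {ε : ℝ} (hε : 0 < ε) :
    ∀ᶠ n in atTop, ∃ c : ℂ, ‖c‖ * ‖S.w 1 (dt 1)‖ ≤ 2 + ε ∧
      ∫ x, ‖ξ n (coc (a n) x)⁻¹ (dt 1) - c • S.w 1 (dt 1)‖ ∂μ ≤ ε := by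
  obtain ⟨W, nW, hW, hR⟩ := exists_ap hb hs S.mem S.norm_le
  have nM : ∀ n, ‖mulOp (Φ n)‖ ≤ 1 := fun n => norm_mulOp_le zero_le_one (hb n)
  have mW : ∀ n γ, W n γ ∈ LA (κ → Γ) := fun n γ => (hW γ).mem n
  have nR : ∀ n γ, ‖Rm (star (W n γ))‖ ≤ 1 := fun n γ => by rw [norm_Rm, nstar]; exact nW n γ
  have he : ∀ n : ℕ, 1 / ((n : ℝ) + 1) ≤ 1 := fun n => by
    rw [div_le_one (by positivity)]; linarith [n.cast_nonneg (α := ℝ)]
  have nA : ∀ n γ, ‖A n γ (dt 1)‖ ≤ 1 := fun n γ => by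
    rw [hA']; exact (((mulOp _).le_of_opNorm_le (nM n) _).trans_eq (one_mul _)).trans (S.norm_hat_le γ)
  have nξ : ∀ n γ, ‖ξ n γ (dt 1)‖ ≤ 2 := fun n γ => by
    have h1 := (hξ n γ).norm_hat_sq (hA n γ)
    nlinarith [nA n γ, he n, norm_nonneg (A n γ (dt 1)), norm_nonneg (ξ n γ (dt 1))]
  have bn : ∀ n γ, BN (mulOp (Φ n)) (ξ n γ (dt 1)) := fun n γ =>
    (hξ n γ).bn (hA n γ) (he n) (S.mem γ) (S.norm_le γ) (nM n) (hA' n γ)
  have hc : ∀ n, Measurable fun x => (coc (a n) x)⁻¹ := fun n => by fun_prop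
  obtain ⟨e1, e2⟩ := engine_fun (v := fun n x => ξ n (coc (a n) x)⁻¹ (dt 1))
    (B := fun n γ => W n γ * Rm (star (W n γ)))
    (fun n => sm_comp (hc n) fun γ => ξ n γ (dt 1)) (fun n x => nξ _ _)
    (fun n γ => (norm_mul_le _ _).trans (mul_le_one₀ (nW n γ) (norm_nonneg _) (nR n γ)))
    (fun γ γ' η hη => by
      have h1 := (hW γ).mul (hW γ')
      rw [← S.mul] at h1
      filter_upwards [h1.close (hW (γ * γ')) (half_pos hη),
        h1.adj.close (hW (γ * γ')).adj (half_pos hη)] with n h2 h3 x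
      set ζ := ξ n (coc (a n) x)⁻¹ (dt 1)
      have h4 := (h2 ζ (bn _ _)).1
      have h5 := (h3 ζ (bn _ _)).2
      simp only [sub_self, zero_apply, norm_zero, mul_zero, zero_add] at h4 h5
      have m1 := mul_mem (mW n γ) (mW n γ')
      have e : (W n γ * Rm (star (W n γ))) ((W n γ' * Rm (star (W n γ'))) ζ)
          - (W n (γ * γ') * Rm (star (W n (γ * γ')))) ζ
          = Rm (star (W n γ * W n γ')) ((W n γ * W n γ') ζ - W n (γ * γ') ζ)
            + W n (γ * γ') (Rm (star (W n γ * W n γ')) ζ - Rm (star (W n (γ * γ'))) ζ) := by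
        rw [map_sub, map_sub, Rm_comm m1 (star_mem m1), Rm_comm (mW _ _) (star_mem m1), star_mul,
          Rm_mul]
        simp only [mul_apply_eq_comp, Rm_comm (mW n γ') (star_mem (mW n γ))]
        abel
      rw [e]
      have n1 : ‖Rm (star (W n γ * W n γ'))‖ ≤ 1 := by
        rw [norm_Rm, nstar]
        exact (norm_mul_le _ _).trans (mul_le_one₀ (nW _ _) (norm_nonneg _) (nW _ _))
      refine (norm_add_le _ _).trans ((add_le_add (le_of_opNorm_le _ n1 _)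
        (le_of_opNorm_le _ (nW _ _) _)).trans (by linarith)))
    (fun h hh => by
      have hcm : ∀ n, Commute (a n) h := fun n => by
        obtain ⟨b, rfl | rfl⟩ := hh
        exacts [(ha n b).1, (ha n b).2]
      let α : ℕ → Γ → ℝ := fun n γ => cn (mulOp (Φ n)) (W n γ)
        + cn (mulOp (Φ n)) (Rm (star (W n γ))) + ‖(W n γ - S.w γ) (dt 1)‖
      have α0 : ∀ n γ, 0 ≤ α n γ := fun n γ =>
        add_nonneg (add_nonneg (cn_nonneg _ _) (cn_nonneg _ _)) (norm_nonneg _)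
      have αb : ∀ n γ, ‖α n γ‖ ≤ 6 := fun n γ => by
        rw [Real.norm_of_nonneg (α0 n γ)]
        have := (norm_hat_le _).trans (norm_sub_le (W n γ) (S.w γ))
        linarith [cn_le _ _ (nM n) (nW n γ), cn_le _ _ (nM n) (nR n γ), nW n γ, S.norm_le γ]
      have αt := tendsto_integral_coc αb
        (fun γ => by simpa only [add_zero] using ((hW γ).c1.add (hR γ)).add (hW γ).lim) h
      have lim := (tendsto_one_div_add_atTop_nhds_zero_nat.const_mul 4).add (αt.const_mul 8)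
      simp only [mul_zero, add_zero] at lim
      refine squeeze_zero (fun n => integral_nonneg fun x => by positivity) (fun n => ?_) lim
      let β : Γ → ℝ := fun γ => ‖A n γ (dt 1)‖ ^ 2
      have βb : ∀ γ, ‖β γ‖ ≤ 1 := fun γ => by
        rw [Real.norm_of_nonneg (sq_nonneg _)]; exact pow_le_one₀ (norm_nonneg _) (nA n γ)
      have i1 := intg (hc n) βb
      have i2 := intg (c := fun x => (coc (a n) (h • x))⁻¹) (by fun_prop) βb
      have i3 := intg (c := fun x => coc h x) (by fun_prop) (αb n)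
      have i4 := intg (c := fun x => coc h (a n • x)) (by fun_prop) (αb n)
      have j1 := integral_smul_eq h fun x => β (coc (a n) x)⁻¹
      have j2 := integral_smul_eq (a n) fun x => α n (coc h x)
      refine integral_le_comb i1 i2 i3 i4 j1 j2 (fun x => by positivity) fun x => ?_
      set γ := (coc (a n) x)⁻¹
      set γ' := (coc (a n) (h • x))⁻¹ with hγ'
      set c₁ := coc h x
      set c₂ := coc h (a n • x)
      have k1 := abs_ineq (hA n γ) (hA n γ') (hξ n γ) (hξ n γ') (mW n c₁) (mW n c₂) (nW _ _) (nW _ _)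
      have k2 := cov_err (nM n) (mW n c₁) (mW n c₂) (nW _ _) (nW _ _) (S.mem c₁) (S.mem c₂)
        (S.norm_le c₂) (S.mem γ) (S.norm_le γ) (hA n γ) (hA' n γ)
      rw [S.star, ← S.mul, ← S.mul, ← coc_comm (hcm n), ← hA', ← hγ'] at k2
      have k3 : (W n c₁ * Rm (star (W n c₁))) (ξ n γ (dt 1))
          = (W n c₁ * ξ n γ * star (W n c₁)) (dt 1) := by
        rw [mul_apply_eq_comp, Rm_apply_LA (star_mem (mW n c₁)) (hξ n γ).mem]; rfl
      set u := A n γ' (dt 1)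
      set u' := (W n c₁ * A n γ * star (W n c₂)) (dt 1)
      have k4 : β γ' - ‖u - u'‖ ≤ (⟪u, u'⟫_ℂ).re := by
        have k5 : (⟪u, u - u'⟫_ℂ).re ≤ ‖u - u'‖ := (Complex.re_le_norm _).trans
          ((norm_inner_le_norm _ _).trans (mul_le_of_le_one_left (norm_nonneg _) (nA n γ')))
        have k6 : (⟪u, u⟫_ℂ).re = β γ' := inner_self_eq_norm_sq (𝕜 := ℂ) u
        rw [inner_sub_right, Complex.sub_re, k6] at k5
        linarith
      have k7 : ‖u - u'‖ ≤ α n c₁ + α n c₂ := by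
        simp only [α]
        linarith [cn_nonneg (mulOp (Φ n)) (W n c₂), cn_nonneg (mulOp (Φ n)) (Rm (star (W n c₁)))]
      rw [k3]
      simp only [β] at k4 ⊢
      linarith)
  have iv : ∀ n, Integrable (fun x => ξ n (coc (a n) x)⁻¹ (dt 1)) μ := fun n =>
    intg (hc n) (f := fun γ => ξ n γ (dt 1)) (nξ n)
  obtain ⟨c1, c2⟩ := S.cen_of hb hs nW hW (fun n => BN.integral (iv n) fun x => bn _ _) e2
  filter_upwards [hE κ S ℕ atTop _ c1 c2 _ (half_pos hε), e1.eventually (ge_mem_nhds (half_pos hε))]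
    with n ⟨c, h1⟩ h2
  set ζ := ∫ x, ξ n (coc (a n) x)⁻¹ (dt 1) ∂μ
  have nζ : ‖ζ‖ ≤ 2 := by
    simpa using norm_integral_le_of_norm_le_const (μ := μ)
      (Eventually.of_forall fun x => nξ n (coc (a n) x)⁻¹)
  refine ⟨c, ?_, ?_⟩
  · rw [← norm_smul]
    linarith [norm_le_norm_add_norm_sub ζ (c • S.w 1 (dt 1))]
  · have i1 : Integrable (fun x => ‖ξ n (coc (a n) x)⁻¹ (dt 1) - ζ‖) μ :=
      ((iv n).sub (integrable_const ζ)).norm
    refine (integral_mono ((iv n).sub (integrable_const _)).norm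
      (i1.add (integrable_const ‖ζ - c • S.w 1 (dt 1)‖))
      fun x => norm_sub_le_norm_sub_add_norm_sub _ _ _).trans ?_
    rw [integral_add' i1 (integrable_const _), integral_const, probReal_univ, one_smul]
    exact (add_le_add h2 h1).trans_eq (add_halves ε)

lemma exists_mult {K : Type} [Group K] {Φ : K → ℂ} (hB : Bdd Φ) (h : ∃ c : ℂ, {g | Φ g ≠ c}.Finite)
    {T : Op K} (hT : T ∈ LA K) : ∃ A ∈ LA K, A (dt 1) = mulOp Φ (T (dt 1)) := by
  obtain ⟨c, hc⟩ := h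
  refine ⟨c • T + ∑ g ∈ hc.toFinset, ((Φ g - c) * T (dt 1) g) • lam K g,
    add_mem (SMulMemClass.smul_mem _ hT) (span_lam_le (URep.mem_span.2 ⟨_, _, rfl⟩)),
    l2_ext fun x => ?_⟩
  classical
  rw [add_apply, sum_lam_hat, l2_add_apply, l2_sum_apply, hB.mulOp_apply, smul_apply, l2_smul_apply]
  simp only [l2_smul_apply, dt_apply, mul_ite, mul_one, mul_zero, Finset.sum_ite_eq,
    Set.Finite.mem_toFinset, Set.mem_ofPred_eq]
  split_ifs with hx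
  · ring
  · rw [not_not.1 hx, add_zero]

lemma slow_affine {K : Type} [Group K] {Φ : ℕ → K → ℂ} (h : Slow Φ) (a : ℂ) {b : ℂ} (hb : ‖b‖ ≤ 1) :
    Slow fun n g => a + b * Φ n g := fun s ε hε => (h s ε hε).mono fun n hn g => by
  constructor <;> rw [add_sub_add_left_eq_sub, ← mul_sub, norm_mul]
  · exact (mul_le_of_le_one_left (norm_nonneg _) hb).trans (hn g).1
  · exact (mul_le_of_le_one_left (norm_nonneg _) hb).trans (hn g).2

lemma polar_tau {K : Type} [Group K] {g y p X : Op K} (hyy : y * star y = p) (c₀ c₁ c₂ : ℂ) :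
    tau (X * (g * star y)) - (2⁻¹ * (4 * c₁ ^ 2 - 1 - c₀ ^ 2)
        - 2⁻¹ * Complex.I * (4 * c₂ ^ 2 - 1 - c₀ ^ 2)) * tau (X * p)
      = 2 * (tau (X * (((2⁻¹ : ℂ) • y + (2⁻¹ : ℂ) • g) * star ((2⁻¹ : ℂ) • y + (2⁻¹ : ℂ) • g)))
          - c₁ ^ 2 * tau (X * p))
        - 2 * Complex.I * (tau (X * (((2⁻¹ : ℂ) • y + (2⁻¹ * Complex.I : ℂ) • g)
          * star ((2⁻¹ : ℂ) • y + (2⁻¹ * Complex.I : ℂ) • g))) - c₂ ^ 2 * tau (X * p))
        - 2⁻¹ * (1 - Complex.I) * (tau (X * (g * star g)) - c₀ ^ 2 * tau (X * p)) := by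
  simp only [star_add, star_smul, add_mul, mul_add, smul_mul_assoc, mul_smul_comm, hyy, tau_add,
    tau_smul, star_mul', star_inv₀, star_ofNat, Complex.star_def, Complex.conj_I]
  linear_combination (2⁻¹ * tau (X * (g * star y)) - 2⁻¹ * tau (X * (y * star g))
    - 2⁻¹ * Complex.I * tau (X * (g * star g))) * Complex.I_mul_I

set_option maxHeartbeats 1000000 in
/-- **CORE.** -/
theorem core (hE : EndStmt) : CoreStmt := by
  intro κ _ _ S a Φ ha hb hs hf h0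
  have hB : ∀ n, Bdd (Φ n) := fun n => ⟨1, hb n⟩
  choose g hg hg' using fun n γ => exists_mult (hB n) (hf n) (S.mem γ)
  have aff : ∀ b : ℂ, ‖b‖ ≤ 2⁻¹ → (∀ n x, ‖2⁻¹ + b * Φ n x‖ ≤ 1) ∧
      (∀ n γ, (2⁻¹ : ℂ) • S.w γ + b • g n γ ∈ LA (κ → Γ)) ∧
      ∀ n γ, ((2⁻¹ : ℂ) • S.w γ + b • g n γ) (dt 1)
        = mulOp (fun x => 2⁻¹ + b * Φ n x) (S.w γ (dt 1)) := fun b hb' => by
    refine ⟨fun n x => (norm_add_le _ _).trans ?_, fun n γ =>
      add_mem (SMulMemClass.smul_mem _ (S.mem γ)) (SMulMemClass.smul_mem _ (hg n γ)), fun n γ => ?_⟩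
    · have := mul_le_mul hb' (hb n x) (norm_nonneg _) (by norm_num)
      rw [norm_mul]; simp only [norm_inv, Complex.norm_ofNat]; linarith
    · rw [mulOp_add (Bdd.const _) ((Bdd.const _).mul (hB n)), mulOp_smul _ (hB n), mulOp_const]
      simp [hg']
  obtain ⟨b1, m1, a1⟩ := aff 2⁻¹ (by simp)
  obtain ⟨b2, m2, a2⟩ := aff (2⁻¹ * Complex.I) (by simp)
  have he : ∀ n : ℕ, 0 < 1 / ((n : ℝ) + 1) := fun n => Nat.one_div_pos_of_nat
  choose ξ₀ hξ₀ using fun n γ => exists_isAbs (hg n γ) (he n)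
  choose ξ₁ hξ₁ using fun n γ => exists_isAbs (m1 n γ) (he n)
  choose ξ₂ hξ₂ using fun n γ => exists_isAbs (m2 n γ) (he n)
  set p := S.w 1 with hp
  set P := ‖p (dt 1)‖ with hP
  have P0 : 0 < P := norm_pos_iff.2 S.ne
  have P1 : P ≤ 1 := S.norm_hat_le 1
  set C := 3 / P with hC
  have C0 : 3 ≤ C := by rw [hC, le_div_iff₀ P0]; linarith
  have nM : ∀ n, ‖mulOp (Φ n)‖ ≤ 1 := fun n => norm_mulOp_le zero_le_one (hb n)
  have ng : ∀ n γ, ‖g n γ (dt 1)‖ ≤ 1 := fun n γ => by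
    rw [hg']; exact (((mulOp _).le_of_opNorm_le (nM n) _).trans_eq (one_mul _)).trans (S.norm_hat_le γ)
  have nab : ∀ {A ξ : Op (κ → Γ)} {n : ℕ} {Ψ : (κ → Γ) → ℂ} {γ}, A ∈ LA (κ → Γ) →
      IsAbs A ξ (1 / ((n : ℝ) + 1)) → (∀ x, ‖Ψ x‖ ≤ 1) → A (dt 1) = mulOp Ψ (S.w γ (dt 1)) →
      ‖ξ (dt 1)‖ ≤ 2 := fun {A ξ n Ψ γ} h1 h2 h3 h4 => by
    have h5 := h2.norm_hat_sq h1
    have h6 : ‖A (dt 1)‖ ≤ 1 := by
      rw [h4]; exact (((mulOp _).le_of_opNorm_le (norm_mulOp_le zero_le_one h3) _).trans_eq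
        (one_mul _)).trans (S.norm_hat_le γ)
    have h7 : 1 / ((n : ℝ) + 1) ≤ 1 := by
      rw [div_le_one (by positivity)]; linarith [n.cast_nonneg (α := ℝ)]
    nlinarith [norm_nonneg (A (dt 1)), norm_nonneg (ξ (dt 1))]
  have hc : ∀ n, Measurable fun x => (coc (a n) x)⁻¹ := fun n => by fun_prop
  simp only [← hg']
  refine tendsto_order.2 ⟨fun r hr => Eventually.of_forall fun n =>
    hr.trans_le (integral_nonneg fun _ => by positivity), fun r hr => ?_⟩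
  obtain ⟨η, η0, η1, hη⟩ : ∃ η : ℝ, 0 < η ∧ η ≤ 1 ∧ (40 * C / P ^ 2 + 40 * C + 11 + C) * η < r := by
    have h1 : 0 < 40 * C / P ^ 2 + 40 * C + 11 + C := by positivity
    refine ⟨min 1 (r / (2 * (40 * C / P ^ 2 + 40 * C + 11 + C))), by positivity, min_le_left _ _, ?_⟩
    refine (mul_le_mul_of_nonneg_left (min_le_right _ _) h1.le).trans_lt ?_
    rw [mul_div_assoc', mul_comm 2, mul_div_mul_left _ _ h1.ne']
    linarith
  have η2 : 0 < η ^ 2 := by positivity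
  have η3 : η ^ 2 ≤ η := by nlinarith
  obtain ⟨u, hu, nu, lu⟩ := exists_span_contraction (S.mem 1) (S.norm_le 1) η2
  filter_upwards [absConc S hE ha hb hs hg hg' hξ₀ η2,
    absConc S hE ha b1 (slow_affine hs _ (by simp; norm_num)) m1 a1 hξ₁ η2,
    absConc S hE ha b2 (slow_affine hs _ (by simp; norm_num)) m2 a2 hξ₂ η2,
    (slow_Rm hb hs hu).eventually (ge_mem_nhds η0),
    tendsto_one_div_add_atTop_nhds_zero_nat.eventually (ge_mem_nhds η2)]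
    with n ⟨c₀, d₀, e₀⟩ ⟨c₁, d₁, e₁⟩ ⟨c₂, d₂, e₂⟩ hcn hn
  have nc : ∀ {c : ℂ}, ‖c‖ * P ≤ 2 + η ^ 2 → ‖c‖ ≤ C := fun h => by
    rw [hC, le_div_iff₀ P0]; linarith
  set c' := 2⁻¹ * (4 * c₁ ^ 2 - 1 - c₀ ^ 2) - 2⁻¹ * Complex.I * (4 * c₂ ^ 2 - 1 - c₀ ^ 2)
  let E₀ : Γ → ℝ := fun γ => ‖ξ₀ n γ (dt 1) - c₀ • p (dt 1)‖
  let E₁ : Γ → ℝ := fun γ => ‖ξ₁ n γ (dt 1) - c₁ • p (dt 1)‖
  let E₂ : Γ → ℝ := fun γ => ‖ξ₂ n γ (dt 1) - c₂ • p (dt 1)‖
  let E : Γ → ℝ := fun γ => E₀ γ + E₁ γ + E₂ γ + η ^ 2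
  have n0 : ∀ γ, ‖ξ₀ n γ (dt 1)‖ ≤ 2 := fun γ => nab (hg n γ) (hξ₀ n γ) (hb n) (hg' n γ)
  have n1' : ∀ γ, ‖ξ₁ n γ (dt 1)‖ ≤ 2 := fun γ => nab (m1 n γ) (hξ₁ n γ) (b1 n) (a1 n γ)
  have n2 : ∀ γ, ‖ξ₂ n γ (dt 1)‖ ≤ 2 := fun γ => nab (m2 n γ) (hξ₂ n γ) (b2 n) (a2 n γ)
  have iE : ∀ {ξ : Γ → Op (κ → Γ)} (c : ℂ), (∀ γ, ‖ξ γ (dt 1)‖ ≤ 2) →
      Integrable (fun x => ‖ξ (coc (a n) x)⁻¹ (dt 1) - c • p (dt 1)‖) μ := fun {ξ} c h =>
    ((intg (hc n) (f := fun γ => ξ γ (dt 1)) h).sub (integrable_const _)).norm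
  have iE01 : Integrable (fun x => E₀ (coc (a n) x)⁻¹ + E₁ (coc (a n) x)⁻¹) μ :=
    (iE c₀ n0).add (iE c₁ n1')
  have iE012 : Integrable (fun x => E₀ (coc (a n) x)⁻¹ + E₁ (coc (a n) x)⁻¹
      + E₂ (coc (a n) x)⁻¹) μ := iE01.add (iE c₂ n2)
  have iE' : Integrable (fun x => E (coc (a n) x)⁻¹) μ := iE012.add (integrable_const _)
  have jE : ∫ x, E (coc (a n) x)⁻¹ ∂μ ≤ 4 * η ^ 2 := by
    simp only [E]
    rw [integral_add iE012 (integrable_const _), integral_add iE01 (iE c₂ n2),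
      integral_add (iE c₀ n0) (iE c₁ n1'), integral_const, probReal_univ, one_smul]
    linarith
  have F1 : ∀ γ, ∀ X ∈ LA (κ → Γ), ‖tau (X * (g n γ * star (S.w γ))) - c' * tau (X * p)‖
      ≤ ‖X‖ * (10 * C * E γ) := fun γ X hX => by
    have t : ∀ {A ξ : Op (κ → Γ)} {c : ℂ}, IsAbs A ξ (1 / ((n : ℝ) + 1)) → ‖ξ (dt 1)‖ ≤ 2 →
        ‖c‖ ≤ C → ‖ξ (dt 1) - c • p (dt 1)‖ + η ^ 2 ≤ E γ →
        ‖tau (X * (A * star A)) - c ^ 2 * tau (X * p)‖ ≤ ‖X‖ * (2 * C * E γ) :=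
      fun {A ξ c} h1 h2 h3 h4 => (h1.tau_le (he n).le (S.mem 1) S.pp (S.norm_le 1) hX c).trans
        (mul_le_mul_of_nonneg_left (by
          nlinarith [norm_nonneg (ξ (dt 1) - c • p (dt 1)), mul_le_mul_of_nonneg_right
            (show ‖ξ (dt 1)‖ + ‖c‖ ≤ 2 * C by linarith) (norm_nonneg (ξ (dt 1) - c • p (dt 1)))])
          (norm_nonneg _))
    have p0 : 0 ≤ E₀ γ := norm_nonneg _
    have p1 : 0 ≤ E₁ γ := norm_nonneg _
    have p2 : 0 ≤ E₂ γ := norm_nonneg _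
    have t0 := t (hξ₀ n γ) (n0 γ) (nc d₀) (by simp only [E, E₀] at *; linarith)
    have t1 := t (hξ₁ n γ) (n1' γ) (nc d₁) (by simp only [E, E₁] at *; linarith)
    have t2 := t (hξ₂ n γ) (n2 γ) (nc d₂) (by simp only [E, E₂] at *; linarith)
    rw [polar_tau (S.mul_star_self γ)]
    refine (norm_sub_le _ _).trans ((add_le_add (norm_sub_le _ _) le_rfl).trans ?_)
    have k : ‖(2⁻¹ * (1 - Complex.I) : ℂ)‖ ≤ 1 := by
      have := norm_sub_le (1 : ℂ) Complex.I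
      rw [norm_mul]; simp at this ⊢; linarith
    rw [norm_mul, norm_mul, norm_mul (2⁻¹ * (1 - Complex.I))]
    have k2 := mul_le_mul k t0 (norm_nonneg _) zero_le_one
    simp only [norm_mul, Complex.norm_ofNat, Complex.norm_I] at k2 ⊢
    linarith
  have tp : tau p = ((P ^ 2 : ℝ) : ℂ) := tau_proj S.pp S.sp
  have F2 : ‖c'‖ * P ^ 2 ≤ 40 * C * η ^ 2 := by
    let f : Γ → ℂ := fun γ => ⟪S.w γ (dt 1), g n γ (dt 1)⟫_ℂ
    have fb : ∀ γ, ‖f γ‖ ≤ 1 := fun γ => (norm_inner_le_norm _ _).trans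
      (mul_le_one₀ (S.norm_hat_le γ) (norm_nonneg _) (ng n γ))
    have k1 : ∫ x, f (coc (a n) x)⁻¹ ∂μ = 0 := by simpa only [f, hg'] using h0 n
    have k2 : ∀ γ, ‖f γ - c' * tau p‖ ≤ 10 * C * E γ := fun γ => by
      have := F1 γ 1 (one_mem _)
      rw [one_mul, one_mul, tau_mul_comm_LA (hg n γ) (star_mem (S.mem γ)), tau_star_mul] at this
      refine this.trans (mul_le_of_le_one_left ?_ n1)
      have : 0 ≤ E γ := by simp only [E, E₀, E₁, E₂]; positivity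
      positivity
    have k3 := norm_integral_le_of_norm_le (iE'.const_mul (10 * C))
      (Eventually.of_forall fun x => k2 (coc (a n) x)⁻¹)
    rw [integral_sub (intg (hc n) fb) (integrable_const _), k1, integral_const, probReal_univ,
      one_smul, zero_sub, norm_neg, integral_const_mul, tp, norm_mul, Complex.norm_real,
      Real.norm_of_nonneg (sq_nonneg P)] at k3
    nlinarith
  have F3 : ∀ γ, ‖g n γ (dt 1)‖ ^ 2
      ≤ (η⁻¹ * (10 * C) + 2) * E γ + (η⁻¹ * ‖c'‖ + C * η + 3 * η) := fun γ => by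
    obtain ⟨X, hX, nX, k⟩ := (hξ₀ n γ).norm_sq_le (hg n γ) (he n).le (S.mem 1) S.sp (S.norm_le 1)
      (S.mem γ) (S.norm_le γ) (S.star_mul_self γ) (span_lam_le hu) (ng n γ) η0 c₀
    have E0 : E₀ γ ≤ E γ := by
      have : 0 ≤ E₁ γ + E₂ γ + η ^ 2 := by simp only [E₁, E₂]; positivity
      simp only [E]; linarith
    have E1 : 0 ≤ E γ := (norm_nonneg _).trans E0
    have k1 := (F1 γ X hX).trans (mul_le_mul_of_nonneg_right nX (by positivity))
    have k2 : ‖c' * tau (X * p)‖ ≤ η⁻¹ * ‖c'‖ := by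
      rw [norm_mul, mul_comm]
      refine mul_le_mul_of_nonneg_right ((norm_tau_le _).trans ((norm_hat_le _).trans
        ((norm_mul_le _ _).trans ((mul_le_of_le_one_right (norm_nonneg _)
          (S.norm_le 1)).trans nX)))) (norm_nonneg _)
    have k3 := norm_le_norm_add_norm_sub' (tau (X * (g n γ * star (S.w γ)))) (c' * tau (X * p))
    have k4 : ‖g n γ (dt 1) - Rm u (g n γ (dt 1))‖ ≤ η + η ^ 2 := by
      rw [hg']
      have k5 := (cn_apply (mulOp (Φ n)) (Rm u) (S.w γ (dt 1))).trans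
        (mul_le_of_le_one_right (cn_nonneg _ _) (S.norm_hat_le γ))
      have k6 : ‖mulOp (Φ n) (Rm u (S.w γ (dt 1))) - mulOp (Φ n) (S.w γ (dt 1))‖ ≤ η ^ 2 := by
        have k7 : Rm u (S.w γ (dt 1)) - S.w γ (dt 1) = S.w γ ((u - S.w 1) (dt 1)) := by
          rw [Rm_apply_LA (span_lam_le hu) (S.mem γ), sub_apply, map_sub, ← mul_apply_eq_comp (S.w γ)
            (S.w 1), ← S.mul, mul_one]
        rw [← map_sub, k7]
        exact (((mulOp _).le_of_opNorm_le (nM n) _).trans_eq (one_mul _)).trans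
          ((((S.w γ).le_of_opNorm_le (S.norm_le γ) _).trans_eq (one_mul _)).trans lu.le)
      rw [norm_sub_rev]
      linarith [norm_sub_le_norm_sub_add_norm_sub (Rm u (mulOp (Φ n) (S.w γ (dt 1))))
        (mulOp (Φ n) (Rm u (S.w γ (dt 1)))) (mulOp (Φ n) (S.w γ (dt 1)))]
    have k5 : η⁻¹ * ‖(u - S.w 1) (dt 1)‖ ≤ η := by
      rw [inv_mul_le_iff₀ η0, ← sq]; exact lu.le
    have k6 := mul_le_mul_of_nonneg_right (nc d₀) η0.le
    simp only [E₀] at E0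
    nlinarith
  have i5 : Integrable (fun x => (η⁻¹ * (10 * C) + 2) * E (coc (a n) x)⁻¹) μ := iE'.const_mul _
  refine (integral_mono_of_nonneg (Eventually.of_forall fun x => by positivity)
    (i5.add (integrable_const _)) (Eventually.of_forall fun x => F3 _)).trans_lt ?_
  rw [integral_add' i5 (integrable_const _), integral_const_mul, integral_const, probReal_univ,
    one_smul]
  have k1 := mul_le_mul_of_nonneg_left jE (show 0 ≤ η⁻¹ * (10 * C) + 2 by positivity)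
  have k2 : (η⁻¹ * (10 * C) + 2) * (4 * η ^ 2) = 40 * C * η + 8 * η ^ 2 := by field_simp; ring
  have k3 : η⁻¹ * ‖c'‖ ≤ 40 * C / P ^ 2 * η := by
    rw [inv_mul_le_iff₀ η0, div_mul_eq_mul_div, mul_div_assoc', le_div_iff₀ (by positivity)]
    linarith
  nlinarith

end Crest.Agent.N111.Cn
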