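import Crest.Agent.N111.Stmts
import Crest.Agent.N111.VN.Kap
import Crest.Agent.N111.Eng.Engine

/-!
# Row 111, module C (concentration): frozen intermediate statements (helper58).

Everything lives in `ℓ²(Σ)`, `Σ = κ → Γ`, `N = LA Σ`, `x̂ = x (dt 1)`.
-/

set_option autoImplicit false

namespace Crest.Agent.N111.Cn

open MeasureTheory Topology Filter
open scoped InnerProductSpace
open Crest.OperatorAlgebra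

/-- bounded operators on `ℓ²(Σ)` -/
abbrev Op (K : Type) : Type := Ell2 K →L[ℂ] Ell2 K

/-- the setting transported to `ℓ²(Σ)`: `w γ` is a unitary of the corner `p N p`, `p = w 1` -/
structure LSet (κ : Type) [Fintype κ] [DecidableEq κ] where
  w : Γ → Op (κ → Γ)
  mem : ∀ γ, w γ ∈ LA (κ → Γ)
  mul : ∀ γ γ', w (γ * γ') = w γ * w γ'
  star : ∀ γ, star (w γ) = w γ⁻¹
  ne : w 1 (dt 1) ≠ 0
  erg : ∀ Z ∈ LA (κ → Γ), (∀ γ, Commute Z (w γ)) → ∃ c : ℂ, w 1 * Z = c • w 1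
  tr : ∀ i, ∃ ω : Op (κ → Γ) →ₗ[ℂ] ℂ, ω (w 1) = 1 ∧ (∀ T, ω (w 1 * T) = ω T) ∧
    (∀ T, 0 ≤ T → 0 ≤ (ω T).re) ∧
    ∀ T, (∀ γ, Commute T (w γ)) → (∀ g, g i = 1 → Commute T (rho (κ → Γ) g)) →
      ∀ μ, ω (rho (κ → Γ) (Pi.mulSingle i μ) * T * rho (κ → Γ) (Pi.mulSingle i μ)⁻¹) = ω T

/-- bounded real functions -/
def RB (f : Γ → ℝ) : Prop := ∃ C, ∀ μ, |f μ| ≤ C

/-- no right invariant mean at infinity on the left slowly varying functions -/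
def NoMeanStmt : Prop :=
  ∀ m : (Γ → ℝ) → ℝ,
    (∀ f g, RB f → RB g → m (fun μ => f μ + g μ) = m f + m g) →
    (∀ (c : ℝ) f, RB f → m (fun μ => c * f μ) = c * m f) →
    (∀ f, RB f → (∀ μ, 0 ≤ f μ) → 0 ≤ m f) →
    (∀ f, Tendsto f cofinite (𝓝 0) → m f = 0) →
    (∀ f, RB f → (∀ ν, Tendsto (fun μ => f (ν * μ) - f μ) cofinite (𝓝 0)) →
      ∀ ν, m (fun μ => f (μ * ν)) = m f) →
    m (fun _ => 1) = 0

/-- asymptotically central, asymptotically bounded vectors -/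
structure LSet.Cen {κ : Type} [Fintype κ] [DecidableEq κ] (S : LSet κ) {α : Type} (l : Filter α)
    (ζ : α → Ell2 (κ → Γ)) : Prop where
  bnL : ∀ z ∈ (lam (κ → Γ)).span, ∀ ε > 0, ∀ᶠ k in l, ‖z (ζ k)‖ ≤ 2 * ‖z (dt 1)‖ + ε
  bnR : ∀ z ∈ (lam (κ → Γ)).span, ∀ ε > 0, ∀ᶠ k in l, ‖Rm z (ζ k)‖ ≤ 2 * ‖z (dt 1)‖ + ε
  cen : ∀ γ, ∀ z ∈ (lam (κ → Γ)).span, ∀ ε > 0, ∀ᶠ k in l,
    ‖z (ζ k) - Rm z (ζ k)‖ ≤ 4 * ‖(z - S.w γ) (dt 1)‖ + ε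

/-- END: asymptotically central vectors of the corner are asymptotically scalar -/
def EndStmt : Prop :=
  ∀ (κ : Type) [Fintype κ] [DecidableEq κ] (S : LSet κ) (α : Type) (l : Filter α)
    (ζ : α → Ell2 (κ → Γ)), S.Cen l ζ →
    (∀ z ∈ (lam (κ → Γ)).span, ∀ ε > 0, ∀ᶠ k in l,
      ‖z (ζ k) - ζ k‖ ≤ 2 * ‖(z - S.w 1) (dt 1)‖ + ε) →
    ∀ ε > 0, ∀ᶠ k in l, ∃ c : ℂ, ‖ζ k - c • S.w 1 (dt 1)‖ ≤ ε

/-- two-sided slowly varying sequences of functions -/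
def Slow {K : Type} [Group K] (Φ : ℕ → K → ℂ) : Prop :=
  ∀ s : K, ∀ ε > 0, ∀ᶠ n in atTop, ∀ g, ‖Φ n (s * g) - Φ n g‖ ≤ ε ∧ ‖Φ n (g * s) - Φ n g‖ ≤ ε

/-- `a` commutes with the lower `SL₂` block -/
def CommH (a : G) : Prop :=
  ∀ b, Commute a (tv (show (1 : Fin 3) ≠ 2 by decide) b) ∧
    Commute a (tv (show (2 : Fin 3) ≠ 1 by decide) b)

/-- CORE: a centred slowly varying multiplier that is constant off a finite set kills `y` -/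
def CoreStmt : Prop :=
  ∀ (κ : Type) [Fintype κ] [DecidableEq κ] (S : LSet κ) (a : ℕ → G) (Φ : ℕ → (κ → Γ) → ℂ),
    (∀ n, CommH (a n)) → (∀ n g, ‖Φ n g‖ ≤ 1) → Slow Φ →
    (∀ n, ∃ c : ℂ, {g | Φ n g ≠ c}.Finite) →
    (∀ n, ∫ x, ⟪S.w (coc (a n) x)⁻¹ (dt 1), mulOp (Φ n) (S.w (coc (a n) x)⁻¹ (dt 1))⟫_ℂ ∂μ = 0) →
    Tendsto (fun n => ∫ x, ‖mulOp (Φ n) (S.w (coc (a n) x)⁻¹ (dt 1))‖ ^ 2 ∂μ) atTop (𝓝 0)

/-- transport of a `Setting` to `ℓ²(Σ)` -/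
def TransStmt : Prop :=
  ∀ (κ H : Type) [Fintype κ] [DecidableEq κ] [NormedAddCommGroup H] [InnerProductSpace ℂ H]
    [CompleteSpace H] (S : Setting κ H), ∃ L : LSet κ, ‖L.w 1 (dt 1)‖ = ‖S.ξ‖ ∧
    ∀ (i : κ) (j₀ : H →L[ℂ] H) (I : Ind (L2X H)), S.IsInd i j₀ I → ‖I.ξ‖ = ‖S.ξ‖ ∧
      ∀ (k : ℕ) (F : Γ → ℝ), RB F → I.ms k F = ∫ x, (⟪L.w (coc (al k)⁻¹ x)⁻¹ (dt 1),
        mulOp (fun g => (F (g i)⁻¹ : ℂ)) (L.w (coc (al k)⁻¹ x)⁻¹ (dt 1))⟫_ℂ).re ∂μ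

end Crest.Agent.N111.Cn
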