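import Crest.Agent.N111.C.Defs

/-!
# Row 111, module C: limits of sesquilinear forms along asymptotically bounded vectors (helper38).
-/

set_option autoImplicit false

namespace Crest.Agent.N111.Cn

open Topology Filter
open scoped InnerProductSpace ComplexConjugate ComplexOrder
open Crest.OperatorAlgebra

/-- a bounded sesquilinear form on a dense subspace is given by an operator -/
theorem exists_op_of_form {E H : Type*} [AddCommGroup E] [Module ℂ E] [NormedAddCommGroup H]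
    [InnerProductSpace ℂ H] [CompleteSpace H] (e : E →ₗ[ℂ] H) (he : DenseRange e) (B : E → E → ℂ)
    (h1 : ∀ z w y, B (z + w) y = B z y + B w y) (h2 : ∀ (c : ℂ) z y, B (c • z) y = conj c * B z y)
    (h3 : ∀ z w y, B y (z + w) = B y z + B y w) (h4 : ∀ (c : ℂ) z y, B y (c • z) = c * B y z)
    {C : ℝ} (hC : 0 ≤ C) (hB : ∀ z y, ‖B z y‖ ≤ C * ‖e z‖ * ‖e y‖) :
    ∃ T : H →L[ℂ] H, ∀ z y, ⟪e z, T (e y)⟫_ℂ = B z y := by
  have h : ∀ y, ∃ v : H, ‖v‖ ≤ C * ‖e y‖ ∧ ∀ z, ⟪e z, v⟫_ℂ = B z y := fun y => by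
    let φ : E →ₗ[ℂ] ℂ :=
      { toFun := fun z => conj (B z y)
        map_add' := fun z w => by rw [h1, map_add]
        map_smul' := fun c z => by simp [h2] }
    have hφ : ∀ z, ‖φ z‖ ≤ C * ‖e y‖ * ‖e z‖ := fun z =>
      (RCLike.norm_conj _).trans_le ((hB z y).trans_eq (by ring))
    refine ⟨(InnerProductSpace.toDual ℂ H).symm (φ.extendOfNorm e), ?_, fun z => ?_⟩
    · rw [LinearIsometryEquiv.norm_map]
      exact LinearMap.opNorm_extendOfNorm_le he (by positivity) hφ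
    · rw [← inner_conj_symm, InnerProductSpace.toDual_symm_apply,
        LinearMap.extendOfNorm_eq he ⟨_, hφ⟩]
      exact Complex.conj_conj _
  choose v hv hv' using h
  have ext : ∀ a b : H, (∀ z, ⟪e z, a⟫_ℂ = ⟪e z, b⟫_ℂ) → a = b := fun a b h =>
    he.eq_of_inner_right ℂ h
  let ψ : E →ₗ[ℂ] H :=
    { toFun := v
      map_add' := fun z w => ext _ _ fun y => by rw [inner_add_right, hv', hv', hv', h3]
      map_smul' := fun c z => ext _ _ fun y => by rw [inner_smul_right, hv', hv', h4]; rfl }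
  exact ⟨ψ.extendOfNorm e, fun z y => by
    rw [LinearMap.extendOfNorm_eq he ⟨C, hv⟩]; exact hv' y z⟩

variable {K : Type} [Group K] {α : Type} {l : Filter α} {ζ ζ' : α → Ell2 K} {S S' : α → Op K}
  {T T' : Op K} {C : ℝ}

/-- asymptotically right bounded -/
def BnR (l : Filter α) (ζ : α → Ell2 K) : Prop :=
  ∀ z ∈ (lam K).span, ∀ ε > 0, ∀ᶠ k in l, ‖Rm z (ζ k)‖ ≤ 2 * ‖z (dt 1)‖ + ε

/-- `T` is the limit of the compressions of `S` -/
def IsLim (l : Filter α) (ζ ζ' : α → Ell2 K) (S : α → Op K) (T : Op K) : Prop :=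
  ∀ z ∈ (lam K).span, ∀ z' ∈ (lam K).span,
    Tendsto (fun k => ⟪Rm z (ζ k), S k (Rm z' (ζ' k))⟫_ℂ) l (𝓝 ⟪z (dt 1), T (z' (dt 1))⟫_ℂ)

theorem BnR.norm_le (h : BnR l ζ) : ∀ᶠ k in l, ‖ζ k‖ ≤ 3 := by
  filter_upwards [h 1 (one_mem _) 1 one_pos] with k hk
  norm_num at hk
  exact hk

omit [Group K] in
theorem norm_inner_op_le {a b : Ell2 K} {X : Op K} {A B : ℝ} (ha : ‖a‖ ≤ A) (hX : ‖X‖ ≤ C)
    (hb : ‖b‖ ≤ B) : ‖⟪a, X b⟫_ℂ‖ ≤ A * (C * B) :=
  (norm_inner_le_norm _ _).trans (mul_le_mul ha ((X.le_opNorm b).trans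
    (mul_le_mul hX hb (norm_nonneg _) ((norm_nonneg _).trans hX))) (norm_nonneg _)
      ((norm_nonneg _).trans ha))

theorem exists_isLim (U : Ultrafilter α) (h : BnR U ζ) (h' : BnR U ζ') (hS : ∀ k, ‖S k‖ ≤ C) :
    ∃ T, IsLim U ζ ζ' S T := by
  have hb : ∀ z z' : (lam K).span, ∀ ε > 0, ∀ᶠ k in U, ‖⟪Rm z (ζ k), S k (Rm z' (ζ' k))⟫_ℂ‖ ≤
      (2 * ‖(z : Op K) (dt 1)‖ + ε) * (C * (2 * ‖(z' : Op K) (dt 1)‖ + ε)) := fun z z' ε hε =>
    ((h z z.2 ε hε).and (h' z' z'.2 ε hε)).mono fun k hk => norm_inner_op_le hk.1 (hS k) hk.2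
  choose B hB using fun z z' => exists_tendsto_ultra U (hb z z' 1 one_pos)
  obtain ⟨k₀, -⟩ := (h.norm_le).exists
  have hC : 0 ≤ C := (norm_nonneg _).trans (hS k₀)
  let e : (lam K).span →ₗ[ℂ] Ell2 K :=
    { toFun := fun z => (z : Op K) (dt 1), map_add' := fun _ _ => rfl, map_smul' := fun _ _ => rfl }
  have he : DenseRange e := Metric.denseRange_iff.2 fun ξ ε hε => by
    obtain ⟨b, hb, hb'⟩ := exists_span_approx ξ hε
    exact ⟨⟨b, hb⟩, by rwa [dist_eq_norm]⟩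
  obtain ⟨T, hT⟩ := exists_op_of_form e he B
    (fun z w y => tendsto_nhds_unique (hB _ _) (by
      simpa [Rm_add, inner_add_left] using (hB z y).add (hB w y)))
    (fun c z y => tendsto_nhds_unique (hB _ _) (by
      simpa [Rm_smul, inner_smul_left, mul_comm] using (hB z y).const_mul (conj c)))
    (fun z w y => tendsto_nhds_unique (hB _ _) (by
      simpa [Rm_add, inner_add_right] using (hB y z).add (hB y w)))
    (fun c z y => tendsto_nhds_unique (hB _ _) (by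
      simpa [Rm_smul, inner_smul_right] using (hB y z).const_mul c))
    (C := 4 * C) (by positivity) fun z y => by
      have hc : Tendsto (fun ε : ℝ => (2 * ‖e z‖ + ε) * (C * (2 * ‖e y‖ + ε))) (𝓝[>] 0)
          (𝓝 ((2 * ‖e z‖ + 0) * (C * (2 * ‖e y‖ + 0)))) :=
        (Continuous.tendsto (by fun_prop) 0).mono_left nhdsWithin_le_nhds
      refine (ge_of_tendsto hc (eventually_mem_nhdsWithin.mono fun ε hε =>
        le_of_tendsto (hB z y).norm (hb z y ε hε))).trans_eq (by ring)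
  exact ⟨T, fun z hz z' hz' => (hT ⟨z, hz⟩ ⟨z', hz'⟩).symm ▸ hB ⟨z, hz⟩ ⟨z', hz'⟩⟩

namespace IsLim

theorem ent (h : IsLim l ζ ζ' S T) (g y : K) :
    Tendsto (fun k => ⟪rho K g⁻¹ (ζ k), S k (rho K y⁻¹ (ζ' k))⟫_ℂ) l (𝓝 ⟪dt g, T (dt y)⟫_ℂ) := by
  simpa only [Rm_lam, lam_dt, mul_one] using
    h _ ((lam K).apply_mem_span g) _ ((lam K).apply_mem_span y)

theorem unique [l.NeBot] (h : IsLim l ζ ζ' S T) (h' : IsLim l ζ ζ' S T') : T = T' :=
  ext_ent fun g y => by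
    rw [ent_eq_inner, ent_eq_inner]; exact tendsto_nhds_unique (h.ent g y) (h'.ent g y)

theorem add (h : IsLim l ζ ζ' S T) (h' : IsLim l ζ ζ' S' T') :
    IsLim l ζ ζ' (fun k => S k + S' k) (T + T') := fun z hz z' hz' => by
  simpa only [add_apply, inner_add_right] using
    (h z hz z' hz').add (h' z hz z' hz')

theorem smul (h : IsLim l ζ ζ' S T) (c : ℂ) : IsLim l ζ ζ' (fun k => c • S k) (c • T) :=
  fun z hz z' hz' => by
    simpa only [smul_apply, inner_smul_right] using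
      (h z hz z' hz').const_mul c

theorem zero : IsLim l ζ ζ' (fun _ => 0) 0 := fun z _ z' _ => by
  simpa using tendsto_const_nhds

theorem congr (h : IsLim l ζ ζ' S T) (hζ : BnR l ζ) (hζ' : BnR l ζ')
    (hS : Tendsto (fun k => S' k - S k) l (𝓝 0)) : IsLim l ζ ζ' S' T := fun z hz z' hz' => by
  have h0 : Tendsto (fun k => ⟪Rm z (ζ k), (S' k - S k) (Rm z' (ζ' k))⟫_ℂ) l (𝓝 0) := by
    refine squeeze_zero_norm' (((hζ z hz 1 one_pos).and (hζ' z' hz' 1 one_pos)).mono fun k hk =>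
      norm_inner_op_le hk.1 le_rfl hk.2) ?_
    simpa using (hS.norm.mul_const (2 * ‖z' (dt 1)‖ + 1)).const_mul (2 * ‖z (dt 1)‖ + 1)
  simpa [inner_sub_right] using h0.add (h z hz z' hz')

theorem nonneg [l.NeBot] (h : IsLim l ζ ζ S T) (hS : ∀ k ξ, 0 ≤ ⟪ξ, S k ξ⟫_ℂ) : 0 ≤ T := by
  have := Complex.orderClosedTopology
  have h1 : ∀ ξ, 0 ≤ ⟪ξ, T ξ⟫_ℂ := fun ξ => by
    have hc : IsClosed {ξ : Ell2 K | 0 ≤ ⟪ξ, T ξ⟫_ℂ} := isClosed_le continuous_const (by fun_prop)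
    refine hc.closure_subset (Metric.mem_closure_iff.2 fun ε hε => ?_)
    obtain ⟨b, hb, hb'⟩ := exists_span_approx ξ hε
    exact ⟨_, ge_of_tendsto' (h b hb b hb) fun k => hS k _, by rwa [dist_eq_norm]⟩
  rw [ContinuousLinearMap.nonneg_iff_isPositive, ContinuousLinearMap.isPositive_iff_complex]
  intro ξ
  obtain ⟨h2, h3⟩ := Complex.nonneg_iff.1 (h1 ξ)
  have e : ⟪T ξ, ξ⟫_ℂ = ((⟪ξ, T ξ⟫_ℂ).re : ℂ) := by
    rw [← inner_conj_symm (T ξ) ξ]
    exact Complex.ext rfl (by rw [Complex.conj_im, ← h3, neg_zero, Complex.ofReal_im])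
  rw [e]
  exact ⟨rfl, h2⟩

theorem cj (h : IsLim l ζ ζ' S T) (g : K) :
    IsLim l ζ ζ' (fun k => rho K g * S k * rho K g⁻¹) (rho K g * T * rho K g⁻¹) :=
  fun z hz z' hz' => by
    have := h _ (mul_mem hz ((lam K).apply_mem_span g)) _ (mul_mem hz' ((lam K).apply_mem_span g))
    simpa only [Rm_mul, Rm_lam, mul_apply_eq_comp, lam_dt, mul_one,
      LA_dt (span_lam_le hz) g, LA_dt (span_lam_le hz') g, ← URep.inner_right] using this

theorem commute_rho [l.NeBot] (h : IsLim l ζ ζ' S T) (hζ : BnR l ζ) (hζ' : BnR l ζ') {g : K}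
    (hS : Tendsto (fun k => S k - rho K g * S k * rho K g⁻¹) l (𝓝 0)) : Commute T (rho K g) := by
  have := h.unique ((h.cj g).congr hζ hζ' hS)
  have e := congrArg (· * rho K g) this
  simpa only [Commute, SemiconjBy, mul_assoc, URep.inv_mul_self, mul_one] using e

end IsLim

theorem norm_LA_dt {T : Op K} (hT : T ∈ LA K) (y : K) : ‖T (dt y)‖ = ‖T (dt 1)‖ := by
  rw [LA_dt hT, URep.norm_map]

theorem eq_of_norm_sub_le {a b : ℂ} {M : ℝ} (h : ∀ η > 0, ‖a - b‖ ≤ M * η) : a = b := by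
  have hc : Tendsto (fun η : ℝ => M * η) (𝓝[>] 0) (𝓝 (M * 0)) :=
    (Continuous.tendsto (by fun_prop) 0).mono_left nhdsWithin_le_nhds
  have := ge_of_tendsto hc (eventually_mem_nhdsWithin.mono h)
  rwa [mul_zero, norm_le_zero_iff, sub_eq_zero] at this

namespace IsLim

/-- the limit lives on the right unit of `ζ'` -/
theorem mul_unit [l.NeBot] (h : IsLim l ζ ζ' S T) (hζ : BnR l ζ) (hS : ∀ k, ‖S k‖ ≤ C) {p : Op K}
    (hp : p ∈ LA K) (hp1 : ‖p‖ ≤ 1) (hu : ∀ z ∈ (lam K).span, ∀ ε > 0, ∀ᶠ k in l,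
      ‖Rm z (ζ' k) - ζ' k‖ ≤ 6 * ‖(z - p) (dt 1)‖ + ε) : T * p = T := by
  refine ext_ent fun g y => eq_of_norm_sub_le (M := ‖T‖ + 3 * (C * 7)) fun η hη => ?_
  obtain ⟨u, hu1, -, hu3⟩ := exists_span_contraction hp hp1 hη
  have h1 := (h _ ((lam K).apply_mem_span g) _ (mul_mem hu1 ((lam K).apply_mem_span y))).sub
    (h.ent g y)
  simp only [Rm_mul, Rm_lam, mul_apply_eq_comp, lam_dt, mul_one,
    ← inner_sub_right, ← map_sub] at h1
  have h2 := le_of_tendsto h1.norm ((hζ.norm_le.and (hu u hu1 η hη)).mono fun k hk =>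
    norm_inner_op_le (A := 3) (B := 7 * η) (by simpa using hk.1) (hS k)
      (by rw [URep.norm_map]; linarith [hk.2]))
  have h3 : ‖⟪dt g, T ((u - p) (dt y))⟫_ℂ‖ ≤ 1 * (‖T‖ * η) :=
    norm_inner_op_le (norm_dt g).le le_rfl
      (by rw [norm_LA_dt (sub_mem (span_lam_le hu1) hp)]; exact hu3.le)
  calc _ = ‖⟪dt g, T (u (dt y) - dt y)⟫_ℂ - ⟪dt g, T ((u - p) (dt y))⟫_ℂ‖ := by
        simp [ent_eq_inner]
    _ ≤ _ := (norm_sub_le _ _).trans (by linarith)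

/-- asymptotically central vectors and operators: the limit commutes with `w` -/
theorem commute [l.NeBot] (h : IsLim l ζ ζ' S T) (hζ : BnR l ζ) (hζ' : BnR l ζ')
    (hS : ∀ k, ‖S k‖ ≤ C) {w : Op K} (hw : w ∈ LA K) (hw1 : ‖w‖ ≤ 1)
    (hc : ∀ z ∈ (lam K).span, ∀ ε > 0, ∀ᶠ k in l,
      ‖z (ζ k) - Rm z (ζ k)‖ ≤ 4 * ‖(z - star w) (dt 1)‖ + ε)
    (hc' : ∀ z ∈ (lam K).span, ∀ ε > 0, ∀ᶠ k in l,
      ‖z (ζ' k) - Rm z (ζ' k)‖ ≤ 4 * ‖(z - w) (dt 1)‖ + ε)
    (hl : ∀ g, Tendsto (fun k => S k * lam K g - lam K g * S k) l (𝓝 0)) : Commute T w := by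
  refine ext_ent fun g y => eq_of_norm_sub_le (M := 2 * ‖T‖ + 30 * C + 9) fun η hη => ?_
  obtain ⟨u, hu1, -, hu3⟩ := exists_span_contraction hw hw1 hη
  have huL := span_lam_le hu1
  have hu4 : ‖(star u - star w) (dt 1)‖ < η := by
    rwa [← star_sub, norm_star_hat_LA (sub_mem huL hw)]
  have hl' : Tendsto (fun k => S k * u - u * S k) l (𝓝 0) :=
    URep.span_induction (p := fun u => Tendsto (fun k => S k * u - u * S k) l (𝓝 0)) (by simp) hl
      (fun a b ha hb => by simpa [mul_add, add_mul, add_sub_add_comm] using ha.add hb)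
      (fun c a ha => by simpa [smul_sub] using ha.const_smul c) hu1
  have h1 := (h _ ((lam K).apply_mem_span g) _ (mul_mem hu1 ((lam K).apply_mem_span y))).sub
    (h _ (mul_mem (star_mem hu1) ((lam K).apply_mem_span g)) _ ((lam K).apply_mem_span y))
  simp only [Rm_mul, Rm_lam, mul_apply_eq_comp, lam_dt, mul_one] at h1
  have h2 : ‖⟪dt g, T (u (dt y))⟫_ℂ - ⟪star u (dt g), T (dt y)⟫_ℂ‖ ≤
      3 * (C * (5 * η)) + 3 * (η * 3) + 5 * η * (C * 3) := by
    refine le_of_tendsto h1.norm ?_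
    filter_upwards [hζ.norm_le, hζ'.norm_le, hc _ (star_mem hu1) η hη, hc' _ hu1 η hη,
      hl'.norm.eventually (ge_mem_nhds (by simpa using hη))] with k a1 a2 a3 a4 a5
    have e : ⟪rho K g⁻¹ (ζ k), S k (rho K y⁻¹ (Rm u (ζ' k)))⟫_ℂ -
        ⟪rho K g⁻¹ (Rm (star u) (ζ k)), S k (rho K y⁻¹ (ζ' k))⟫_ℂ =
        -⟪rho K g⁻¹ (ζ k), S k (rho K y⁻¹ (u (ζ' k) - Rm u (ζ' k)))⟫_ℂ +
          ⟪rho K g⁻¹ (ζ k), (S k * u - u * S k) (rho K y⁻¹ (ζ' k))⟫_ℂ +
          ⟪rho K g⁻¹ (star u (ζ k) - Rm (star u) (ζ k)), S k (rho K y⁻¹ (ζ' k))⟫_ℂ := by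
      simp only [map_sub, inner_sub_right, inner_sub_left, sub_apply,
        mul_apply_eq_comp, URep.comm_apply huL, URep.comm_apply (star_mem huL)]
      rw [ContinuousLinearMap.star_eq_adjoint u, ContinuousLinearMap.adjoint_inner_left]
      ring
    rw [e]
    refine (norm_add₃_le).trans (add_le_add_three ?_ ?_ ?_)
    · rw [norm_neg]
      exact norm_inner_op_le (by simpa using a1) (hS k) (by rw [URep.norm_map]; linarith)
    · exact norm_inner_op_le (by simpa using a1) a5 (by simpa using a2)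
    · exact norm_inner_op_le (by rw [URep.norm_map]; linarith) (hS k) (by simpa using a2)
  have h3 : ‖⟪dt g, T ((u - w) (dt y))⟫_ℂ‖ ≤ 1 * (‖T‖ * η) :=
    norm_inner_op_le (norm_dt g).le le_rfl
      (by rw [norm_LA_dt (sub_mem huL hw)]; exact hu3.le)
  have h4 : ‖⟪(star u - star w) (dt g), T (dt y)⟫_ℂ‖ ≤ η * (‖T‖ * 1) :=
    norm_inner_op_le (by rw [norm_LA_dt (sub_mem (star_mem huL) (star_mem hw))]; exact hu4.le)
      le_rfl (norm_dt y).le
  calc _ = ‖⟪dt g, T (u (dt y))⟫_ℂ - ⟪star u (dt g), T (dt y)⟫_ℂ -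
        ⟪dt g, T ((u - w) (dt y))⟫_ℂ + ⟪(star u - star w) (dt g), T (dt y)⟫_ℂ‖ := by
        simp only [ent_eq_inner, map_sub, inner_sub_right, inner_sub_left,
          sub_apply, mul_apply_eq_comp,
          ContinuousLinearMap.star_eq_adjoint, ContinuousLinearMap.adjoint_inner_left]
        congr 1; ring
    _ ≤ _ := (norm_add_le _ _).trans ((add_le_add_left (norm_sub_le _ _) _).trans (by linarith))

end IsLim

end Crest.Agent.N111.Cn
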